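import Mathlib

/-!
# Row 250, toolbox (helper2): smooth limits along an ultrafilter (all jets converge)
-/

set_option autoImplicit false
open Set Filter Topology Function Metric
open scoped ContDiff

noncomputable section

namespace Crest.Agent.N250.Gr

variable {X : Type} [NormedAddCommGroup X] [NormedSpace ℝ X] [FiniteDimensional ℝ X]
  {ι : Type}

theorem finite_cml (j : ℕ) (F : Type) [NormedAddCommGroup F] [NormedSpace ℝ F]
    [FiniteDimensional ℝ F] : FiniteDimensional ℝ (X [×j]→L[ℝ] F) := by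
  induction j with
  | zero =>
    exact (continuousMultilinearCurryFin0 ℝ X F).symm.toLinearEquiv.finiteDimensional
  | succ j ih =>
    exact (continuousMultilinearCurryLeftEquiv ℝ (fun _ : Fin (j + 1) => X)
      F).symm.toLinearEquiv.finiteDimensional

/-- bounded equi-Lipschitz families converge uniformly along an ultrafilter -/
theorem lip_lim {F : Type} [NormedAddCommGroup F] [ProperSpace F] (𝒰 : Ultrafilter ι)
    (g : ι → X → F) {U : Set X} (hU : Bornology.IsBounded U) (C L : ℝ)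
    (hC : ∀ᶠ j in (𝒰 : Filter ι), ∀ z ∈ U, ‖g j z‖ ≤ C)
    (hL : ∀ᶠ j in (𝒰 : Filter ι), ∀ z ∈ U, ∀ y ∈ U, ‖g j y - g j z‖ ≤ L * ‖y - z‖) :
    ∃ G : X → F, TendstoUniformlyOn g G 𝒰 U := by
  have : ProperSpace X := FiniteDimensional.proper_real X
  have h1 : ∀ z, ∃ a : F, z ∈ U → Tendsto (fun j => g j z) 𝒰 (𝓝 a) := by
    intro z
    by_cases hz : z ∈ U
    · obtain ⟨a, -, ha⟩ := (isCompact_closedBall (0 : F) C).ultrafilter_le_nhds
        (𝒰.map fun j => g j z) (by
          rw [Ultrafilter.coe_map, le_principal_iff, mem_map]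
          filter_upwards [hC] with j hj
          simpa using hj z hz)
      exact ⟨a, fun _ => ha⟩
    · exact ⟨0, fun h => absurd h hz⟩
  choose G hG using h1
  refine ⟨G, Metric.tendstoUniformlyOn_iff.2 fun ε hε => ?_⟩
  have hGL : ∀ z ∈ U, ∀ y ∈ U, ‖G y - G z‖ ≤ L * ‖y - z‖ := fun z hz y hy =>
    le_of_tendsto ((hG y hy).sub (hG z hz)).norm (hL.mono fun j hj => hj z hz y hy)
  have htb : TotallyBounded U := hU.isCompact_closure.totallyBounded.subset subset_closure
  set δ := ε / 3 / (|L| + 1) with hδ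
  have hδ0 : 0 < δ := by positivity
  obtain ⟨t, hts, htf, ht⟩ := Metric.finite_approx_of_totallyBounded htb δ hδ0
  have h2 : ∀ᶠ j in (𝒰 : Filter ι), ∀ z ∈ t, dist (g j z) (G z) < ε / 3 :=
    (eventually_all_finite htf).2 fun z hz => Metric.tendsto_nhds.1 (hG z (hts hz)) _ (by positivity)
  filter_upwards [h2, hL] with j hj hjL y hy
  obtain ⟨z, hz, hyz⟩ := mem_iUnion₂.1 (ht hy)
  have hyz' : ‖y - z‖ < δ := by rwa [mem_ball, dist_eq_norm] at hyz
  have h3 : L * ‖y - z‖ ≤ ε / 3 := by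
    have : L * ‖y - z‖ ≤ (|L| + 1) * δ :=
      mul_le_mul ((le_abs_self L).trans (by linarith)) hyz'.le (norm_nonneg _) (by positivity)
    rwa [hδ, mul_div_cancel₀ _ (by positivity)] at this
  have a1 := (hGL z (hts hz) y hy).trans h3
  have a2 := (hjL z (hts hz) y hy).trans h3
  have a3 := hj z hz
  rw [← dist_eq_norm] at a1 a2
  have := dist_triangle4 (G y) (G z) (g j z) (g j y)
  rw [dist_comm (G z), dist_comm (g j z) (g j y)] at this
  linarith

omit [FiniteDimensional ℝ X] in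
/-- derivatives of limits -/
theorem der_lim {F : Type} [NormedAddCommGroup F] [NormedSpace ℝ F] {l : Filter ι} [l.NeBot]
    {g : ι → X → F} {G : X → F} {G' : X → X →L[ℝ] F} {U : Set X} (hU : IsOpen U)
    (hd : ∀ᶠ j in l, ∀ z ∈ U, DifferentiableAt ℝ (g j) z)
    (h0 : TendstoUniformlyOn g G l U)
    (h1 : TendstoUniformlyOn (fun j => fderiv ℝ (g j)) G' l U) :
    ∀ x ∈ U, HasFDerivAt G (G' x) x := by
  intro x hx
  have hb : U ∈ 𝓝 x := hU.mem_nhds hx
  refine hasFDerivAt_of_tendstoUniformlyOnFilter (l := l) (f := g)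
    (f' := fun j => fderiv ℝ (g j)) ?_ ?_ (eventually_of_mem hb fun y hy => h0.tendsto_at hy)
  · exact (tendstoUniformlyOn_iff_tendstoUniformlyOnFilter.1 h1).mono_right (le_principal_iff.2 hb)
  · exact (hd.prod_mk (eventually_of_mem hb fun _ h => h)).mono fun q hq =>
      (hq.1 q.2 hq.2).hasFDerivAt

/-- all jets converge uniformly on `U` -/
def JLim {F : Type} [NormedAddCommGroup F] [NormedSpace ℝ F] (l : Filter ι) (w : ι → X → F)
    (v : X → F) (U : Set X) : Prop :=
  ∀ k : ℕ, TendstoUniformlyOn (fun j => iteratedFDeriv ℝ k (w j)) (iteratedFDeriv ℝ k v) l U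

/-- `C^∞` Arzelà-Ascoli along an ultrafilter -/
theorem sm_lim {F : Type} [NormedAddCommGroup F] [NormedSpace ℝ F] [FiniteDimensional ℝ F]
    (𝒰 : Ultrafilter ι) (w : ι → X → F) {U : Set X} (hU : IsOpen U) (hc : Convex ℝ U)
    (hB : Bornology.IsBounded U)
    (hw : ∀ᶠ j in (𝒰 : Filter ι), ContDiffOn ℝ ∞ (w j) U)
    (hb : ∀ k : ℕ, ∃ C : ℝ, ∀ᶠ j in (𝒰 : Filter ι), ∀ z ∈ U, ‖iteratedFDeriv ℝ k (w j) z‖ ≤ C) :
    ∃ v : X → F, ContDiffOn ℝ ∞ v U ∧ JLim (𝒰 : Filter ι) w v U := by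
  choose C hC using hb
  have : ∀ j, FiniteDimensional ℝ (X [×j]→L[ℝ] F) := fun j => finite_cml j F
  have : ∀ j, ProperSpace (X [×j]→L[ℝ] F) := fun j => FiniteDimensional.proper_real _
  have hd : ∀ k, ∀ᶠ j in (𝒰 : Filter ι), ∀ z ∈ U,
      DifferentiableAt ℝ (iteratedFDeriv ℝ k (w j)) z := fun k => hw.mono fun j hj z hz =>
    ((hj.contDiffAt (hU.mem_nhds hz)).iteratedFDeriv_right (m := 1)
      (by exact_mod_cast le_top)).differentiableAt one_ne_zero
  have h1 : ∀ k, ∃ G : X → X [×k]→L[ℝ] F,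
      TendstoUniformlyOn (fun j => iteratedFDeriv ℝ k (w j)) G 𝒰 U := fun k =>
    lip_lim 𝒰 _ hB (C k) (C (k + 1)) (hC k) (by
      filter_upwards [hd k, hC (k + 1)] with j hj hj' z hz y hy
      refine hc.norm_image_sub_le_of_norm_fderiv_le hj (fun x hx => ?_) hz hy
      rw [norm_fderiv_iteratedFDeriv]; exact hj' x hx)
  choose G hG using h1
  have hder : ∀ m, ∀ x ∈ U, HasFDerivAt (G m) (G (m + 1) x).curryLeft x := fun m =>
    der_lim (g := fun j => iteratedFDeriv ℝ m (w j)) (G' := fun x => (G (m + 1) x).curryLeft) hU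
      (hd m) (hG m) ((continuousMultilinearCurryLeftEquiv ℝ (fun _ : Fin (m + 1) => X)
        F).isometry.uniformContinuous.comp_tendstoUniformlyOn (hG (m + 1)))
  have hT : HasFTaylorSeriesUpToOn ∞ (fun x => (G 0 x).curry0) (fun x j => G j x) U :=
    ⟨fun _ _ => rfl, fun m _ x hx => (hder m x hx).hasFDerivWithinAt,
      fun m _ x hx => (hder m x hx).continuousAt.continuousWithinAt⟩
  refine ⟨fun x => (G 0 x).curry0, hT.contDiffOn, fun k => (hG k).congr_right fun x hx => ?_⟩
  have := hT.eq_iteratedFDerivWithin_of_uniqueDiffOn (m := k) (by exact_mod_cast le_top)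
    hU.uniqueDiffOn hx
  rw [iteratedFDerivWithin_of_isOpen k hU hx] at this
  exact this

section

variable {F : Type} [NormedAddCommGroup F] [NormedSpace ℝ F] {l : Filter ι} {w : ι → X → F}
  {v : X → F} {U : Set X}

omit [FiniteDimensional ℝ X]

theorem JLim.mono (h : JLim l w v U) {U' : Set X} (hU : U' ⊆ U) : JLim l w v U' :=
  fun k => (h k).mono hU

theorem JLim.val (h : JLim l w v U) : TendstoUniformlyOn w v l U := by
  have := (continuousMultilinearCurryFin0 ℝ X F).isometry.uniformContinuous.comp_tendstoUniformlyOn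
    (h 0)
  simpa [Function.comp_def] using this

theorem JLim.fderiv (h : JLim l w v U) : JLim l (fun j => fderiv ℝ (w j)) (fderiv ℝ v) U := by
  intro k
  have := (continuousMultilinearCurryRightEquiv' ℝ k X F).isometry.uniformContinuous
    |>.comp_tendstoUniformlyOn (h (k + 1))
  simpa [Function.comp_def, iteratedFDeriv_succ_eq_comp_right] using this

theorem JLim.d1 (h : JLim l w v U) :
    TendstoUniformlyOn (fun j => _root_.fderiv ℝ (w j)) (_root_.fderiv ℝ v) l U := h.fderiv.val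

theorem JLim.d2 (h : JLim l w v U) :
    TendstoUniformlyOn (fun j => _root_.fderiv ℝ (_root_.fderiv ℝ (w j)))
      (_root_.fderiv ℝ (_root_.fderiv ℝ v)) l U := h.fderiv.fderiv.val

/-- jet bounds pass to the limit -/
theorem JLim.bound [l.NeBot] (h : JLim l w v U) {k : ℕ} {C : ℝ}
    (hb : ∀ᶠ j in l, ∀ z ∈ U, ‖iteratedFDeriv ℝ k (w j) z‖ ≤ C) :
    ∀ z ∈ U, ‖iteratedFDeriv ℝ k v z‖ ≤ C := fun z hz =>
  le_of_tendsto ((h k).tendsto_at hz).norm (hb.mono fun _ hj => hj z hz)

end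

/-- a uniform limit evaluated along converging points -/
theorem tendsto_of_tuo {α β : Type} [TopologicalSpace α] [PseudoMetricSpace β] {l : Filter ι}
    {g : ι → α → β} {G : α → β} {U : Set α} (h : TendstoUniformlyOn g G l U) {p : ι → α} {x : α}
    (hU : U ∈ 𝓝 x) (hG : ContinuousAt G x) (hp : Tendsto p l (𝓝 x)) :
    Tendsto (fun j => g j (p j)) l (𝓝 (G x)) :=
  h.tendsto_comp hG.continuousWithinAt
    (tendsto_nhdsWithin_iff.2 ⟨hp, hp.eventually hU⟩)

end Crest.Agent.N250.Gr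

end
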