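import Mathlib

/-!
# Row 250, graphs (helper2), part 4: uniform jet bounds for families by closure properties
-/

set_option autoImplicit false
open Set Filter Topology
open scoped ContDiff

noncomputable section

namespace Crest.Agent.N250.Gr

variable {ι Y : Type} [NormedAddCommGroup Y] [NormedSpace ℝ Y] {U B : ι → Set Y}
  {P : (ι → Y → ℝ) → Prop} {f g : ι → Y → ℝ} {D : Set Y} {v : Y}

/-- directional derivative of a family -/
def pd (v : Y) (f : ι → Y → ℝ) : ι → Y → ℝ := fun i q => fderiv ℝ (f i) q v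

/-- an algebra of smooth families -/
structure Good (U : ι → Set Y) (P : (ι → Y → ℝ) → Prop) : Prop where
  op : ∀ i, IsOpen (U i)
  sm : ∀ {f}, P f → ∀ i, ContDiffOn ℝ ∞ (f i) (U i)
  add : ∀ {f g}, P f → P g → P fun i q => f i q + g i q
  mul : ∀ {f g}, P f → P g → P fun i q => f i q * g i q
  const : ∀ (c : ι → ℝ) (C : ℝ), (∀ i, |c i| ≤ C) → P fun i _ => c i
  congr : ∀ {f g}, P f → (∀ i, ∀ q ∈ U i, g i q = f i q) → P g

/-- smooth on `U`, bounded on `B` -/
def Bd (U B : ι → Set Y) (f : ι → Y → ℝ) : Prop :=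
  (∀ i, ContDiffOn ℝ ∞ (f i) (U i)) ∧ ∃ C, ∀ i, ∀ q ∈ B i, |f i q| ≤ C

/-- `m` derivatives in the directions `D` stay in `P` -/
def It (P : (ι → Y → ℝ) → Prop) (D : Set Y) : ℕ → (ι → Y → ℝ) → Prop
  | 0, f => P f
  | m + 1, f => P f ∧ ∀ v ∈ D, It P D m (pd v f)

/-- all derivatives in the directions `D` stay in `P` -/
def All (P : (ι → Y → ℝ) → Prop) (D : Set Y) (f : ι → Y → ℝ) : Prop := ∀ m, It P D m f

theorem good_Bd (hU : ∀ i, IsOpen (U i)) (hB : ∀ i, B i ⊆ U i) : Good U (Bd U B) where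
  op := hU
  sm h := h.1
  add := fun ⟨a, C, b⟩ ⟨c, C', d⟩ => ⟨fun i => (a i).add (c i), C + C', fun i q hq =>
    (abs_add_le _ _).trans (add_le_add (b i q hq) (d i q hq))⟩
  mul := fun ⟨a, C, b⟩ ⟨c, C', d⟩ => ⟨fun i => (a i).mul (c i), C * C', fun i q hq =>
    (abs_mul _ _).trans_le (mul_le_mul (b i q hq) (d i q hq) (abs_nonneg _)
      ((abs_nonneg _).trans (b i q hq)))⟩
  const _ C h := ⟨fun _ => contDiffOn_const, C, fun i _ _ => h i⟩
  congr := fun ⟨a, C, b⟩ h => ⟨fun i => (a i).congr (h i), C, fun i q hq =>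
    h i q (hB i hq) ▸ b i q hq⟩

theorem It.base {m : ℕ} (h : It P D m f) : P f := by
  cases m with
  | zero => exact h
  | succ m => exact h.1

theorem It.down {m : ℕ} (h : It P D (m + 1) f) : It P D m f := by
  induction m generalizing f with
  | zero => exact h.1
  | succ m ih => exact ⟨h.1, fun v hv => ih (h.2 v hv)⟩

theorem All.pd (h : All P D f) (hv : v ∈ D) : All P D (pd v f) := fun m => (h (m + 1)).2 v hv

theorem All.intro (h : P f) (hd : ∀ v ∈ D, All P D (Gr.pd v f)) : All P D f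
  | 0 => h
  | m + 1 => ⟨h, fun v hv => hd v hv m⟩

namespace Good

variable (G : Good U P)
include G

theorem diff (h : P f) {i : ι} {q : Y} (hq : q ∈ U i) : DifferentiableAt ℝ (f i) q :=
  ((G.sm h i).contDiffAt ((G.op i).mem_nhds hq)).differentiableAt (by simp)

theorem pd_congr (h : ∀ i, ∀ q ∈ U i, g i q = f i q) (v : Y) :
    ∀ i, ∀ q ∈ U i, pd v g i q = pd v f i q := fun i q hq => by
  simp only [pd]
  rw [Filter.EventuallyEq.fderiv_eq (eventually_of_mem ((G.op i).mem_nhds hq) (h i))]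

theorem pd_mul (hf : P f) (hg : P g) (v : Y) : ∀ i, ∀ q ∈ U i,
    pd v (fun i q => f i q * g i q) i q = pd v f i q * g i q + f i q * pd v g i q := fun i q hq => by
  simp only [pd]
  rw [fderiv_fun_mul (G.diff hf hq) (G.diff hg hq)]
  simp only [add_apply, smul_apply, smul_eq_mul]; ring

theorem it_congr {m : ℕ} (hf : It P D m f) (h : ∀ i, ∀ q ∈ U i, g i q = f i q) : It P D m g := by
  induction m generalizing f g with
  | zero => exact G.congr hf h
  | succ m ih => exact ⟨G.congr hf.1 h, fun v hv => ih (hf.2 v hv) (G.pd_congr h v)⟩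

theorem it_add {m : ℕ} (hf : It P D m f) (hg : It P D m g) :
    It P D m fun i q => f i q + g i q := by
  induction m generalizing f g with
  | zero => exact G.add hf hg
  | succ m ih =>
    refine ⟨G.add hf.1 hg.1, fun v hv => G.it_congr (ih (hf.2 v hv) (hg.2 v hv)) fun i q hq => ?_⟩
    simp only [pd]
    rw [fderiv_fun_add (G.diff hf.1 hq) (G.diff hg.1 hq)]; rfl

theorem it_mul {m : ℕ} (hf : It P D m f) (hg : It P D m g) :
    It P D m fun i q => f i q * g i q := by
  induction m generalizing f g with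
  | zero => exact G.mul hf hg
  | succ m ih =>
    exact ⟨G.mul hf.1 hg.1, fun v hv => G.it_congr
      (G.it_add (ih (hf.2 v hv) hg.down) (ih hf.down (hg.2 v hv))) (G.pd_mul hf.1 hg.1 v)⟩

theorem it_const (m : ℕ) (c : ι → ℝ) (C : ℝ) (h : ∀ i, |c i| ≤ C) :
    It P D m fun i _ => c i := by
  induction m generalizing c C with
  | zero => exact G.const c C h
  | succ m ih =>
    exact ⟨G.const c C h, fun v _ => G.it_congr (ih (fun _ => 0) 0 fun _ => by simp)
      fun i q _ => by simp [pd]⟩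

theorem it (D : Set Y) (m : ℕ) : Good U (It P D m) :=
  ⟨G.op, fun h => G.sm h.base, G.it_add, G.it_mul, G.it_const m, G.it_congr⟩

theorem all (D : Set Y) : Good U (All P D) :=
  ⟨G.op, fun h => G.sm (h 0), fun a b m => G.it_add (a m) (b m), fun a b m => G.it_mul (a m) (b m),
    fun c C h m => G.it_const m c C h, fun a h m => G.it_congr (a m) h⟩

theorem num (c : ℝ) : P fun _ _ => c := G.const (fun _ => c) |c| fun _ => le_rfl

theorem neg (h : P f) : P fun i q => -f i q := G.congr (G.mul (G.num (-1)) h) fun _ _ _ => by ring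

theorem sub (hf : P f) (hg : P g) : P fun i q => f i q - g i q :=
  G.congr (G.add hf (G.neg hg)) fun _ _ _ => by ring

theorem sum {κ : Type} (s : Finset κ) {f : κ → ι → Y → ℝ} (h : ∀ k ∈ s, P (f k)) :
    P fun i q => ∑ k ∈ s, f k i q := by
  classical
  induction s using Finset.induction_on with
  | empty => simpa using G.num 0
  | insert a s ha ih =>
    exact G.congr (G.add (h a (by simp)) (ih fun k hk => h k (by simp [hk])))
      fun _ _ _ => Finset.sum_insert ha

theorem pd_comm (h : P f) (v w : Y) : ∀ i, ∀ q ∈ U i,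
    pd v (pd w f) i q = pd w (pd v f) i q := fun i q hq => by
  have h1 := (G.sm h i).contDiffAt ((G.op i).mem_nhds hq)
  have h2 : DifferentiableAt ℝ (fderiv ℝ (f i)) q :=
    (h1.fderiv_right (m := ∞) (by simp)).differentiableAt (by simp)
  have h3 : ∀ a b : Y, pd a (pd b f) i q = fderiv ℝ (fderiv ℝ (f i)) q a b := fun a b => by
    change fderiv ℝ (fun x => fderiv ℝ (f i) x b) q a = _
    rw [fderiv_clm_apply h2 (differentiableAt_const b)]; simp
  rw [h3, h3]
  exact ((h1.of_le (m := 2) (WithTop.coe_le_coe.2 le_top)).isSymmSndFDerivAt (by simp)).eq v w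

/-- a derivative that preserves `P` preserves the iterated classes -/
theorem it_pd (hv : ∀ {f}, P f → P (pd v f)) {m : ℕ} (h : It P D m f) : It P D m (pd v f) := by
  induction m generalizing f with
  | zero => exact hv h
  | succ m ih => exact ⟨hv h.1, fun w hw => G.it_congr (ih (h.2 w hw)) (G.pd_comm h.1 w v)⟩

theorem pd_inv {r c : ι → Y → ℝ} (hr : P r) (hc : P c) (h1 : ∀ i, ∀ q ∈ U i, c i q * r i q = 1)
    (v : Y) : ∀ i, ∀ q ∈ U i, pd v c i q = -(c i q * c i q * pd v r i q) := fun i q hq => by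
  have := (G.pd_mul hc hr v i q hq).symm.trans (G.pd_congr (f := fun _ _ => 1) h1 v i q hq)
  have h0 : pd v (fun (_ : ι) (_ : Y) => (1 : ℝ)) i q = 0 := by simp [pd]
  linear_combination c i q * this + c i q * h0 - pd v c i q * h1 i q hq

theorem it_inv {r c : ι → Y → ℝ} (hc : P c) (h1 : ∀ i, ∀ q ∈ U i, c i q * r i q = 1) {m : ℕ}
    (hr : It P D m r) : It P D m c := by
  induction m with
  | zero => exact hc
  | succ m ih =>
    exact ⟨hc, fun v hv => G.it_congr ((G.it D m).neg
      (G.it_mul (G.it_mul (ih hr.down) (ih hr.down)) (hr.2 v hv))) (G.pd_inv hr.1 hc h1 v)⟩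

/-- `r = √Q` with inverse `c` -/
theorem it_sqrt {Q r c : ι → Y → ℝ} (hr : P r) (hc : P c) (h1 : ∀ i, ∀ q ∈ U i, c i q * r i q = 1)
    (h2 : ∀ i, ∀ q ∈ U i, r i q * r i q = Q i q) {m : ℕ} (hQ : It P D m Q) : It P D m r := by
  induction m with
  | zero => exact hr
  | succ m ih =>
    refine ⟨hr, fun v hv => G.it_congr (G.it_mul (G.it_mul (hQ.2 v hv)
      (G.it_inv hc h1 (ih hQ.down))) ((G.it D m).num 2⁻¹)) fun i q hq => ?_⟩
    rw [← G.pd_congr h2 v i q hq, G.pd_mul hr hr v i q hq]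
    linear_combination (-pd v r i q) * h1 i q hq

/-- a class of bounded families that is stable under all partial derivatives has bounded jets -/
theorem jets (hB : ∀ i, B i ⊆ U i) (hb : ∀ {f}, P f → ∃ C, ∀ i, ∀ q ∈ B i, |f i q| ≤ C)
    {κ : Type} [Fintype κ] (b : κ → Y) (l : κ → Y →L[ℝ] ℝ) (hl : ∀ y, y = ∑ k, l k y • b k)
    (hv : ∀ k, ∀ {f}, P f → P (pd (b k) f)) (m : ℕ) (h : P f) :
    ∃ C, ∀ i, ∀ q ∈ B i, ‖iteratedFDeriv ℝ m (f i) q‖ ≤ C := by
  induction m generalizing f with
  | zero => simpa using hb h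
  | succ m ih =>
    choose C hC using fun k => ih (hv k h)
    refine ⟨∑ k, ‖l k‖ * C k, fun i q hq => ?_⟩
    have hq' := (G.op i).mem_nhds (hB i hq)
    have h1 : fderiv ℝ (f i) = ∑ k, (ContinuousLinearMap.toSpanSingleton ℝ (l k)) ∘
        pd (b k) f i := by
      ext x y
      conv_lhs => rw [hl y]
      simp [pd, mul_comm]
    have h2 : ∀ k, ContDiffAt ℝ m (pd (b k) f i) q := fun k =>
      ((G.sm (hv k h) i).contDiffAt hq').of_le (by exact_mod_cast le_top)
    rw [← norm_iteratedFDeriv_fderiv, h1, iteratedFDeriv_sum_apply fun k _ =>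
      (ContinuousLinearMap.toSpanSingleton ℝ (l k)).contDiff.contDiffAt.comp q (h2 k)]
    refine (norm_sum_le _ _).trans (Finset.sum_le_sum fun k _ => ?_)
    refine (ContinuousLinearMap.norm_iteratedFDeriv_comp_left _ (h2 k) le_rfl).trans ?_
    rw [ContinuousLinearMap.norm_toSpanSingleton]
    exact mul_le_mul_of_nonneg_left (hC k i q hq) (norm_nonneg _)

end Good

end Crest.Agent.N250.Gr

end
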