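import Crest.Agent.N250.Gr.Sheet
import Crest.Agent.N250.Gr.AA

/-!
# Row 250, graphs (helper2), part 6: compactness, `CptS`
-/

set_option autoImplicit false
open Set Filter Topology Metric
open scoped ContDiff InnerProductSpace
open Crest.GeometryTopology.MCF

noncomputable section

namespace Crest.Agent.N250.Gr

variable {α : Type} {l : Filter α} {Fk : α → Mv} {Ω W : Set ST} {p q : ST}

theorem reach_le {F : Mv} {ρ σ : ℝ} (h0 : 0 < σ) (hσ : σ ≤ ρ) (hn : ‖F.n p‖ = 1)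
    (h : F.Reach p ρ) : F.Reach p σ := fun y hy => by
  have h1 := reach_in (h0.trans_le hσ) hn h hy
  have h2 : |⟪y - p.1, F.n p⟫_ℝ| * (2 * σ) ≤ ‖y - p.1‖ ^ 2 := le_trans (by gcongr) h1
  have h3 := abs_le.1 (le_refl |⟪y - p.1, F.n p⟫_ℝ|)
  constructor <;> refine le_of_pow_le_pow_left₀ two_ne_zero dist_nonneg ?_ <;> rw [dist_eq_norm]
  · rw [← sub_sub, norm_sub_sq_real, inner_smul_right, norm_smul, hn, Real.norm_of_nonneg h0.le]
    nlinarith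
  · rw [show y - (p.1 - σ • F.n p) = y - p.1 + σ • F.n p by abel, norm_add_sq_real,
      inner_smul_right, norm_smul, hn, Real.norm_of_nonneg h0.le]
    nlinarith

theorem exists_seq [l.NeBot] {S : α → Set ST} (h1 : ∀ ε > 0, ∀ᶠ k in l, ∃ q ∈ S k, dist q p < ε)
    (h2 : ∀ᶠ k in l, p ∈ closure (S k) → p ∈ S k) :
    ∃ pk : α → ST, Tendsto pk l (𝓝 p) ∧ ∀ᶠ k in l, pk k ∈ S k := by
  have h3 : ∀ᶠ k in l, ∃ q, q ∈ S k ∧ dist q p ≤ 2 * infDist p (S k) := by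
    filter_upwards [h1 1 one_pos, h2] with k ⟨q, hq, _⟩ h4
    by_cases hc : p ∈ closure (S k)
    · exact ⟨p, h4 hc, by simpa using infDist_nonneg⟩
    · have h5 := (infDist_pos_iff_notMem_closure ⟨q, hq⟩).1 hc
      obtain ⟨y, a, b⟩ := (infDist_lt_iff ⟨q, hq⟩).1
        (show infDist p (S k) < 2 * infDist p (S k) by linarith)
      exact ⟨y, a, by rw [dist_comm]; exact b.le⟩
  obtain ⟨pk, h4⟩ := h3.choice
  refine ⟨pk, Metric.tendsto_nhds.2 fun ε hε => ?_, h4.mono fun k hk => hk.1⟩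
  filter_upwards [h4, h1 (ε / 2) (by positivity)] with k a ⟨q, b, c⟩
  have := infDist_le_dist_of_mem (x := p) b
  rw [dist_comm] at this
  linarith [a.2]

theorem lim_jet {φk : α → ST → ℝ} {φ : ST → ℝ} (h : JLim l φk φ W) (hW : IsOpen W)
    (hφ : ContDiffOn ℝ ∞ φ W) (hk : ∀ᶠ k in l, ContDiffOn ℝ ∞ (φk k) W) (hq : q ∈ W)
    {qk : α → ST} (ht : Tendsto qk l (𝓝 q)) : Tendsto (fun k => φk k (qk k)) l (𝓝 (φ q)) ∧
      Tendsto (fun k => gradX (φk k) (qk k).1 (qk k).2) l (𝓝 (gradX φ q.1 q.2)) ∧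
      Tendsto (fun k => dT (φk k) (qk k)) l (𝓝 (dT φ q)) := by
  have h0 := hφ.contDiffAt (hW.mem_nhds hq)
  have h1 := tendsto_of_tuo h.d1 (hW.mem_nhds hq)
    (h0.fderiv_right (m := ∞) (by simp)).continuousAt ht
  have h2 : ∀ w, Tendsto (fun k => fderiv ℝ (φk k) (qk k) w) l (𝓝 (fderiv ℝ φ q w)) := fun w =>
    ((ContinuousLinearMap.apply ℝ ℝ w).continuous.tendsto _).comp h1
  have h3 : ∀ᶠ k in l, DifferentiableAt ℝ (φk k) (qk k) :=
    (hk.and (ht.eventually (hW.mem_nhds hq))).mono fun k a =>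
      (a.1.contDiffAt (hW.mem_nhds a.2)).differentiableAt (by simp)
  have h4 := h0.differentiableAt (by simp)
  refine ⟨tendsto_of_tuo h.val (hW.mem_nhds hq) h0.continuousAt ht, ?_, ?_⟩
  · rw [gradX_eq h4]
    exact (tendsto_finsetSum _ fun a _ => (h2 _).smul_const _).congr'
      (h3.mono fun k a => (gradX_eq a).symm)
  · rw [dT_eq h4]
    exact (h2 _).congr' (h3.mono fun k a => (dT_eq a).symm)

theorem one_le_grad {φ : ST → ℝ} {e : E} (he : ‖e‖ = 1) (hd : DifferentiableAt ℝ φ q)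
    (h : ∀ s : ℝ, φ (q.1 + s • e, q.2) = φ q + s) : 1 ≤ ‖gradX φ q.1 q.2‖ := by
  have h1 : HasDerivAt (fun s : ℝ => ((q.1 + s • e, q.2) : ST)) (e, 0) 0 :=
    (by simpa using ((hasDerivAt_id (0 : ℝ)).smul_const e).const_add q.1 :
      HasDerivAt (fun s : ℝ => q.1 + s • e) e 0).prodMk (hasDerivAt_const _ _)
  have h2 := HasFDerivAt.comp_hasDerivAt_of_eq (0 : ℝ) hd.hasFDerivAt h1 (by simp)
  have h3 : HasDerivAt (φ ∘ fun s : ℝ => ((q.1 + s • e, q.2) : ST)) 1 0 :=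
    ((hasDerivAt_id (0 : ℝ)).const_add (φ q)).congr_of_eventuallyEq (Eventually.of_forall h)
  have h4 := real_inner_le_norm (gradX φ q.1 q.2) e
  rwa [inner_gradX hd, h2.unique h3, he, mul_one] at h4

/-- a common chart for all flows that pass close to `p` -/
theorem chart (hR : ReachAS) (hB : BernS) {U : Set ST} (hU : U ∈ 𝓝 p) {ρ : ℝ} (hρ : 0 < ρ) :
    ∃ (W : Set ST) (ε : ℝ) (C : ℕ → ℝ), IsOpen W ∧ Convex ℝ W ∧ Bornology.IsBounded W ∧ p ∈ W ∧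
      W ⊆ U ∧ 0 < ε ∧ ∀ F : Mv, F.IsMCF → F.Proper U → (∀ q ∈ F.M ∩ U, F.Reach q ρ) →
      ∀ q ∈ F.M, dist q p < ε → ∃ φ : ST → ℝ, F.Loc W φ ∧
        (∃ e : E, ‖e‖ = 1 ∧ ∀ (q : ST) (s : ℝ), φ (q.1 + s • e, q.2) = φ q + s) ∧
        ∀ m, ∀ z ∈ W, ‖iteratedFDeriv ℝ m φ z‖ ≤ C m := by
  obtain ⟨R, hR0, hRU⟩ := Metric.mem_nhds_iff.1 hU
  obtain ⟨c, h0, h1, h2, h3⟩ : ∃ c : ℝ, 0 < c ∧ 200 * c ≤ ρ ∧ 200 * c ≤ 1 ∧ 600 * c ≤ R := by
    have a := min_le_left (ρ / 200) (min (1 / 200) (R / 600))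
    have b := le_min_iff.1 (min_le_right (ρ / 200) (min (1 / 200) (R / 600)))
    exact ⟨min (ρ / 200) (min (1 / 200) (R / 600)), by positivity, by linarith, by linarith [b.1],
      by linarith [b.2]⟩
  obtain ⟨C, hC⟩ := sheet hR hB (ρ := 200 * c) (by positivity)
  rw [show 200 * c / 200 = c by ring] at hC
  have hc2 : 0 < c ^ 2 := by positivity
  have hc3 : 200 * c ^ 2 ≤ c := by nlinarith
  have hin : ∀ x t, ‖x - p.1‖ < 400 * c → |t - p.2| < 400 * c → (x, t) ∈ U := fun x t a b =>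
    hRU (by
      rw [mem_ball, Prod.dist_eq, dist_eq_norm, Real.dist_eq]
      exact max_lt (a.trans_le (by linarith)) (b.trans_le (by linarith)))
  refine ⟨ball p.1 (c / 2) ×ˢ Ioo (p.2 - c ^ 2 / 4) (p.2 + c ^ 2 / 4), c ^ 2 / 4, C,
    isOpen_ball.prod isOpen_Ioo, (convex_ball _ _).prod (convex_Ioo _ _),
    isBounded_ball.prod (isBounded_Ioo _ _), ⟨mem_ball_self (by linarith), by linarith,
      by linarith⟩, fun z hz => hin z.1 z.2 ((mem_ball_iff_norm.1 hz.1).trans (by linarith))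
      (abs_lt.2 ⟨by linarith [hz.2.1], by linarith [hz.2.2]⟩), by positivity,
    fun F hF hP hr q hq hd => ?_⟩
  have hr' : ∀ z ∈ F.M ∩ U, F.Reach z (200 * c) := fun z hz =>
    reach_le (by positivity) h1 (hF.1.norm_n hz.1) (hr z hz)
  rw [Prod.dist_eq, max_lt_iff, dist_eq_norm, Real.dist_eq] at hd
  have a1 := abs_lt.1 hd.2
  have a2 : |p.2 + c ^ 2 / 2 - q.2| ≤ 3 * c ^ 2 / 4 := abs_le.2 ⟨by linarith, by linarith⟩
  have a3 : ∀ (x : E) (t : ℝ), |t - q.2| ≤ 3 * c ^ 2 / 4 → ‖x - q.1‖ ≤ 4 / (200 * c) * |t - q.2| →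
      ‖x - p.1‖ ≤ c / 2 := fun x t a b => by
    have b1 : 4 / (200 * c) * |t - q.2| ≤ 4 / (200 * c) * (3 * c ^ 2 / 4) := by gcongr
    rw [show 4 / (200 * c) * (3 * c ^ 2 / 4) = 3 * c / 200 by field_simp] at b1
    have b2 := norm_add_le (x - q.1) (q.1 - p.1)
    rw [sub_add_sub_cancel] at b2
    linarith [hd.1]
  obtain ⟨x, hx, hx'⟩ := speed hF.1 hP (fun z hz => spd_of hR hF hz.1 (by positivity) (hr' z hz))
    (y := q.1) (t₁ := q.2) (t₂ := p.2 + c ^ 2 / 2) hq fun x t ht hx => by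
      have b1 := (abs_sub_left_of_mem_uIcc ht).trans a2
      have b2 := abs_le.1 b1
      exact hin x t ((a3 x t b1 hx).trans_lt (by linarith)) (abs_lt.2 ⟨by linarith, by linarith⟩)
  have a4 := a3 x _ a2 hx'
  have a5 : PC (x, p.2 + c ^ 2 / 2) (200 * c) ⊆ U := fun z hz => by
    have b1 : ‖z.1 - x‖ < 200 * c := mem_ball_iff_norm.1 hz.1
    have b2 := norm_add_le (z.1 - x) (x - p.1)
    rw [sub_add_sub_cancel] at b2
    have b3 : p.2 + c ^ 2 / 2 - (200 * c) ^ 2 < z.2 := hz.2.1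
    have b4 : z.2 ≤ p.2 + c ^ 2 / 2 := hz.2.2
    exact hin z.1 z.2 (by linarith) (abs_lt.2 ⟨by nlinarith, by linarith⟩)
  obtain ⟨W, u, c1, c2, c3, -, c4⟩ := hC F _ hF hx (fun z hz h' => hP z hz (a5 h'))
    fun z hz => hr' z ⟨hz.1, a5 hz.2⟩
  have a6 : ball p.1 (c / 2) ×ˢ Ioo (p.2 - c ^ 2 / 4) (p.2 + c ^ 2 / 4) ⊆
      PC (x, p.2 + c ^ 2 / 2) c := fun z hz => by
    have b1 : ‖z.1 - p.1‖ < c / 2 := mem_ball_iff_norm.1 hz.1
    have b2 := norm_sub_le (z.1 - p.1) (x - p.1)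
    rw [sub_sub_sub_cancel_right] at b2
    exact ⟨mem_ball_iff_norm.2 (by linarith), by linarith [hz.2.1], by linarith [hz.2.2]⟩
  refine ⟨_, c2.mono (isOpen_ball.prod isOpen_Ioo) (a6.trans c1), ⟨_, hF.1.norm_n hx, fun z s => ?_⟩,
    fun m z hz => (c4 m z (a6 hz)).2⟩
  rw [c3, add_sub_right_comm, inner_add_left, real_inner_smul_left, hF.1.inner_n hx]
  ring

/-- `pk` approximates `p` -/
def Ap (l : Filter α) (Fk : α → Mv) (p : ST) (pk : α → ST) : Prop :=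
  Tendsto pk l (𝓝 p) ∧ ∀ᶠ k in l, pk k ∈ (Fk k).M

/-- the limit -/
def lim (l : Filter α) (Fk : α → Mv) (Ω : Set ST) : Mv where
  M := {p | p ∈ Ω ∧ ∃ pk, Ap l Fk p pk}
  n p := limUnder l fun k => (Fk k).n (Classical.epsilon (Ap l Fk p) k)
  V p := limUnder l fun k => (Fk k).V (Classical.epsilon (Ap l Fk p) k)

theorem loc_lim [l.NeBot] {φk : α → ST → ℝ} {φ : ST → ℝ} (h : JLim l φk φ W) (hW : IsOpen W)
    (hΩ : W ⊆ Ω) (hφ : ContDiffOn ℝ ∞ φ W) (hk : ∀ᶠ k in l, (Fk k).Loc W (φk k))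
    (he : ∀ᶠ k in l, ∃ e : E, ‖e‖ = 1 ∧ ∀ (q : ST) (s : ℝ), φk k (q.1 + s • e, q.2) = φk k q + s) :
    (lim l Fk Ω).Loc W φ := by
  have hs := hk.mono fun k a => a.sm
  have hne : ∀ q ∈ W, gradX φ q.1 q.2 ≠ 0 := fun q hq => by
    have h1 := (lim_jet h hW hφ hs hq tendsto_const_nhds).2.1.norm
    have h2 := ge_of_tendsto h1 ((hk.and he).mono fun k ⟨a, e, b, c⟩ =>
      one_le_grad b (a.diffAt hq) (c q))
    exact norm_pos_iff.1 (one_pos.trans_le h2)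
  refine ⟨hW, hφ, hne, fun q hq => ⟨fun ⟨_, pk, a, b⟩ => ?_, fun h0 => ⟨hΩ hq, ?_⟩⟩,
    fun q hq hM => ?_, fun q hq hM => ?_⟩
  · refine tendsto_nhds_unique (lim_jet h hW hφ hs hq a).1 (tendsto_const_nhds.congr' ?_)
    filter_upwards [hk, b, a.eventually (hW.mem_nhds hq)] with k c d e
      using ((c.mem _ e).1 d).symm
  · obtain ⟨e, he⟩ := he.choice
    have h1 := (lim_jet h hW hφ hs hq tendsto_const_nhds).1
    rw [h0] at h1
    have h2 : Tendsto (fun k => ((q.1 + (-φk k q) • e k, q.2) : ST)) l (𝓝 q) := by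
      refine Tendsto.prodMk_nhds ?_ tendsto_const_nhds
      rw [tendsto_iff_norm_sub_tendsto_zero]
      refine (tendsto_zero_iff_norm_tendsto_zero.1 h1).congr' (he.mono fun k a => ?_)
      simp [norm_smul, a.1]
    refine ⟨_, h2, ?_⟩
    filter_upwards [hk, he, h2.eventually (hW.mem_nhds hq)] with k a b c
    rw [a.mem _ c, b.2, add_neg_cancel]
  · obtain ⟨a, b⟩ := Classical.epsilon_spec hM.2
    have h1 := (lim_jet h hW hφ hs hq a).2.1
    refine Tendsto.limUnder_eq (((h1.norm.inv₀ (norm_ne_zero_iff.2 (hne q hq))).smul h1).congr' ?_)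
    filter_upwards [hk, b, a.eventually (hW.mem_nhds hq)] with k c d e using (c.n_eq _ e d).symm
  · obtain ⟨a, b⟩ := Classical.epsilon_spec hM.2
    obtain ⟨-, h1, h2⟩ := lim_jet h hW hφ hs hq a
    refine Tendsto.limUnder_eq ((h2.neg.div h1.norm (norm_ne_zero_iff.2 (hne q hq))).congr' ?_)
    filter_upwards [hk, b, a.eventually (hW.mem_nhds hq)] with k c d e using (c.V_eq _ e d).symm

theorem cptS_of (hR : ReachAS) (hB : BernS) (hJ : ConvJetS) : CptS := by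
  intro α l Fk Ω _ H
  have hseq : ∀ p ∈ Ω, (∀ ε > 0, ∀ᶠ k in (l : Filter α), ∃ q ∈ (Fk k).M, dist q p < ε) →
      p ∈ (lim l Fk Ω).M := fun p hp h => by
    obtain ⟨U, hU, ρ, -, h1⟩ := H p hp
    exact ⟨hp, exists_seq h (h1.mono fun k a b => a.2.1 p b (mem_of_mem_nhds hU))⟩
  have hconv : Conv l Fk (lim l Fk Ω) Ω := by
    refine ⟨fun p hp hM => ?_, fun p hp hM => ?_⟩
    · by_contra! hc
      refine hM (hseq p hp fun ε hε => ?_)
      refine (hc _ (ball_mem_nhds p hε)).mono fun k a => ?_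
      obtain ⟨q, b, c⟩ := not_disjoint_iff.1 a
      exact ⟨q, c, b⟩
    · obtain ⟨U, hU, ρ, hρ, h1⟩ := H p hp
      obtain ⟨W, ε, C, a1, a2, a3, a4, a5, a6, a7⟩ := chart hR hB
        (inter_mem hU (IsOpen.mem_nhds ‹_› hp)) hρ
      obtain ⟨pk, b1, b2⟩ := hM.2
      obtain ⟨φk, hφ⟩ := Eventually.choice (by
        filter_upwards [h1, b2, Metric.tendsto_nhds.1 b1 ε a6] with k c d e
        exact a7 (Fk k) c.1 (fun q hq h' => c.2.1 q hq h'.1) (fun q hq => c.2.2 q ⟨hq.1, hq.2.1⟩)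
          _ d e : ∀ᶠ k in (l : Filter α), ∃ φ : ST → ℝ, (Fk k).Loc W φ ∧
            (∃ e : E, ‖e‖ = 1 ∧ ∀ (q : ST) (s : ℝ), φ (q.1 + s • e, q.2) = φ q + s) ∧
            ∀ m, ∀ z ∈ W, ‖iteratedFDeriv ℝ m φ z‖ ≤ C m)
      obtain ⟨φ, c1, c2⟩ := sm_lim l φk a1 a2 a3 (hφ.mono fun k a => a.1.sm)
        fun m => ⟨C m, hφ.mono fun k a => a.2.2 m⟩
      exact ⟨W, φ, φk, a4, loc_lim c2 a1 (a5.trans inter_subset_right) c1
        (hφ.mono fun k a => a.1) (hφ.mono fun k a => a.2.1), hφ.mono fun k a => a.1,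
        fun m => (c2 m).tendstoLocallyUniformlyOn⟩
  refine ⟨lim l Fk Ω, ⟨fun p hp => ?_, fun p hp => ?_⟩, fun p hp => hp.1, fun p hp hΩ => ?_, hconv⟩
  · obtain ⟨W, φ, -, a, b, -⟩ := hconv.near p hp.1 hp
    exact ⟨W, φ, a, b⟩
  · obtain ⟨pk, b1, b2⟩ := hp.2
    obtain ⟨-, a1, a2⟩ := (hJ α l Fk _ Ω hconv).1 pk p hp.1 b1 b2
    obtain ⟨U, -, ρ, -, h1⟩ := H p hp.1
    have a3 := (tendsto_finsetSum Finset.univ fun a _ => a2 [a] a).neg
    rw [Mv.H, Finset.sum_apply]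
    refine tendsto_nhds_unique a1 (a3.congr' ?_)
    filter_upwards [h1, b2] with k c d
    rw [c.1.2 _ d, Mv.H, Finset.sum_apply]
    rfl
  · refine hseq p hΩ fun ε hε => ?_
    obtain ⟨p', ⟨-, pk, b1, b2⟩, a⟩ := Metric.mem_closure_iff.1 hp (ε / 2) (by positivity)
    filter_upwards [b2, Metric.tendsto_nhds.1 b1 (ε / 2) (by positivity)] with k c d
    exact ⟨_, c, by linarith [dist_triangle (pk k) p' p, dist_comm p p']⟩

end Crest.Agent.N250.Gr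

end
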