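import Crest.Agent.N250.Gr.Loc

/-!
# Row 250, graphs (helper2), part 2: every line parallel to `n X` near `X` meets the track once
-/

set_option autoImplicit false
open Set Filter Topology Metric
open scoped ContDiff InnerProductSpace
open Crest.GeometryTopology.MCF

noncomputable section

namespace Crest.Agent.N250.Gr

variable {F : Mv} {X p q : ST} {δ : ℝ}

theorem reach_in {ρ : ℝ} (hρ : 0 < ρ) (hn : ‖F.n p‖ = 1) (h : F.Reach p ρ) {y : E}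
    (hy : (y, p.2) ∈ F.M) : |⟪y - p.1, F.n p⟫_ℝ| * (2 * ρ) ≤ ‖y - p.1‖ ^ 2 := by
  obtain ⟨h1, h2⟩ := h y hy
  rw [dist_eq_norm] at h1 h2
  have h3 := pow_le_pow_left₀ hρ.le h1 2
  have h4 := pow_le_pow_left₀ hρ.le h2 2
  rw [← sub_sub, norm_sub_sq_real, inner_smul_right, norm_smul, hn, Real.norm_of_nonneg hρ.le] at h3
  rw [show y - (p.1 - ρ • F.n p) = y - p.1 + ρ • F.n p by abel, norm_add_sq_real, inner_smul_right,
    norm_smul, hn, Real.norm_of_nonneg hρ.le] at h4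
  rcases abs_cases ⟪y - p.1, F.n p⟫_ℝ with h5 | h5 <;> rw [h5.1] <;> nlinarith

theorem foot_unique {ρ s s' : ℝ} (hρ : 0 < ρ) (hF : F.Reg) (hp : p ∈ F.M) (hq : q ∈ F.M)
    (ht : p.2 = q.2) (h : F.Reach p ρ) (h' : F.Reach q ρ) (hs : |s| < ρ) (hs' : |s'| < ρ)
    (e : p.1 + s • F.n p = q.1 + s' • F.n q) : p = q := by
  have h1 := reach_in hρ (hF.norm_n hp) h (y := q.1) (by rw [ht]; exact hq)
  have h2 := reach_in hρ (hF.norm_n hq) h' (y := p.1) (by rw [← ht]; exact hp)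
  have h3 : q.1 - p.1 = s • F.n p - s' • F.n q := by
    rw [sub_eq_sub_iff_add_eq_add, ← e, add_comm]
  have h4 : ‖q.1 - p.1‖ ^ 2 = s * ⟪q.1 - p.1, F.n p⟫_ℝ + s' * ⟪p.1 - q.1, F.n q⟫_ℝ := by
    rw [← real_inner_self_eq_norm_sq, ← neg_sub q.1 p.1, inner_neg_left]
    nth_rewrite 2 [h3]
    rw [inner_sub_right, inner_smul_right, inner_smul_right]; ring
  rw [norm_sub_rev p.1] at h2
  have h5 := le_abs_self (s * ⟪q.1 - p.1, F.n p⟫_ℝ)
  have h6 := le_abs_self (s' * ⟪p.1 - q.1, F.n q⟫_ℝ)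
  rw [abs_mul] at h5 h6
  by_contra hne
  have h7 : 0 < ‖q.1 - p.1‖ ^ 2 := by
    have : q.1 - p.1 ≠ 0 := fun h0 => hne (Prod.ext (sub_eq_zero.1 h0).symm ht)
    positivity
  have h8 := mul_le_mul_of_nonneg_left h1 (abs_nonneg s)
  have h9 := mul_le_mul_of_nonneg_left h2 (abs_nonneg s')
  nlinarith [mul_pos (sub_pos.2 hs) h7, mul_pos (sub_pos.2 hs') h7]

/-- the hypotheses at scale `ρ = 100 δ` -/
structure Hy (F : Mv) (X : ST) (δ : ℝ) : Prop where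
  reg : F.Reg
  pos : 0 < δ
  mem : X ∈ F.M
  prop : F.Proper (PC X (100 * δ))
  reach : ∀ p ∈ F.M ∩ PC X (100 * δ), F.Reach p (100 * δ)
  spd : ∀ p ∈ F.M ∩ PC X (100 * δ), |F.V p| < 1 / (25 * δ)

/-- time interval -/
def TT (X : ST) (δ : ℝ) : Set ℝ := Icc (X.2 - δ ^ 2 / 4) X.2

/-- compact piece of the track -/
def K1 (F : Mv) (X : ST) (δ : ℝ) : Set ST := closure F.M ∩ closedBall X.1 (90 * δ) ×ˢ TT X δ

/-- one side of the track -/
def Sd (F : Mv) (X : ST) (δ σ : ℝ) : Set ST :=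
  (fun z : ST × ℝ => (z.1.1 + (σ * z.2) • F.n z.1, z.1.2)) '' (K1 F X δ ×ˢ Icc 0 (45 * δ))

namespace Hy

variable (h : Hy F X δ) {y w : E} {t s σ : ℝ}
include h

theorem pc {r : ℝ} (hr : δ ≤ r) (hy : ‖y - X.1‖ < r) (ht : t ∈ TT X δ) : (y, t) ∈ PC X r := by
  have := h.pos
  exact ⟨mem_ball_iff_norm.2 hy, by nlinarith [ht.1], ht.2⟩

theorem pc' (hy : ‖y - X.1‖ < 100 * δ) (ht : t ∈ TT X δ) : (y, t) ∈ PC X (100 * δ) :=
  h.pc (by linarith [h.pos]) hy ht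

theorem top : X.2 ∈ TT X δ := ⟨sub_le_self _ (by have := h.pos; positivity), le_rfl⟩

theorem dt {t' : ℝ} (ht : t ∈ TT X δ) (ht' : t' ∈ TT X δ) : 1 / (25 * δ) * |t' - t| ≤ δ / 100 := by
  have := h.pos
  have h1 : |t' - t| ≤ δ ^ 2 / 4 := abs_le.2 ⟨by linarith [ht.2, ht'.1], by linarith [ht.1, ht'.2]⟩
  calc _ ≤ 1 / (25 * δ) * (δ ^ 2 / 4) := by gcongr
    _ = _ := by field_simp; norm_num

theorem move {t' : ℝ} (hy : (y, t) ∈ F.M) (hd : ‖y - X.1‖ ≤ 90 * δ) (ht : t ∈ TT X δ)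
    (ht' : t' ∈ TT X δ) : ∃ x, (x, t') ∈ F.M ∧ ‖x - y‖ ≤ δ / 100 := by
  obtain ⟨x, h1, h2⟩ := speed h.reg h.prop h.spd hy (t₂ := t') fun x r hr hx => by
    have h3 : r ∈ TT X δ := uIcc_subset_Icc ht ht' hr
    have := norm_add_le (x - y) (y - X.1)
    rw [sub_add_sub_cancel] at this
    exact h.pc' (by linarith [h.dt ht h3, h.pos]) h3
  exact ⟨x, h1, h2.trans (h.dt ht ht')⟩

theorem unit : ‖F.n X‖ = 1 := h.reg.norm_n h.mem

theorem free (hs : |s| = 20 * δ) (hy : (y, t) ∈ F.M) (ht : t ∈ TT X δ) :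
    20 * δ - δ / 100 ≤ ‖y - (X.1 + s • F.n X)‖ := by
  have hδ := h.pos
  by_contra! hlt
  have h0 : ‖s • F.n X‖ = 20 * δ := by rw [norm_smul, h.unit, mul_one, Real.norm_eq_abs, hs]
  have h1 := norm_add_le (y - (X.1 + s • F.n X)) (s • F.n X)
  rw [show y - (X.1 + s • F.n X) + s • F.n X = y - X.1 by abel] at h1
  obtain ⟨x, h2, h3⟩ := h.move hy (by linarith) ht h.top
  have h4 := reach_in (by positivity) h.unit
    (h.reach X ⟨h.mem, h.pc' (y := X.1) (by simpa using hδ) h.top⟩) h2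
  have h5 := norm_add_le (x - y) (y - (X.1 + s • F.n X))
  rw [sub_add_sub_cancel, ← sub_sub] at h5
  have h6 : ‖x - X.1 - s • F.n X‖ ^ 2 < (20 * δ) ^ 2 := by
    gcongr; linarith
  rw [norm_sub_sq_real, h0, inner_smul_right] at h6
  have h7 := le_abs_self (s * ⟪x - X.1, F.n X⟫_ℝ)
  rw [abs_mul, hs] at h7
  nlinarith [sq_nonneg ‖x - X.1‖]

theorem K1_sub (hp : p ∈ K1 F X δ) : p ∈ F.M ∩ PC X (100 * δ) := by
  have h1 : p ∈ PC X (100 * δ) :=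
    h.pc' ((mem_closedBall_iff_norm.1 hp.2.1).trans_lt (by linarith [h.pos])) hp.2.2
  exact ⟨h.prop p hp.1 h1, h1⟩

theorem closed_Sd (σ : ℝ) : IsClosed (Sd F X δ σ) := by
  have h1 : IsCompact (K1 F X δ) :=
    ((isCompact_closedBall _ _).prod isCompact_Icc).inter_left isClosed_closure
  have h2 : ContinuousOn (fun z : ST × ℝ => F.n z.1) (K1 F X δ ×ˢ Icc 0 (45 * δ)) :=
    h.reg.sm_n.continuousOn.comp continuousOn_fst fun z hz => (h.K1_sub hz.1).1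
  exact ((h1.prod isCompact_Icc).image_of_continuousOn (by fun_prop)).isClosed

theorem cover (hσ : σ * σ = 1) (hy : ‖y - X.1‖ ≤ 40 * δ) (ht : t ∈ TT X δ) :
    (y, t) ∈ Sd F X δ σ ∪ Sd F X δ (-σ) := by
  have hδ := h.pos
  obtain ⟨x, h1, h2⟩ := h.move (y := X.1) h.mem (by simpa using hδ.le) h.top ht
  have h3 : IsCompact (closedBall X.1 (90 * δ) ∩ {z | (z, t) ∈ closure F.M}) :=
    (isCompact_closedBall _ _).inter_right (isClosed_closure.preimage (by fun_prop))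
  obtain ⟨z, hz, hm⟩ := h3.exists_isMinOn
    ⟨x, mem_closedBall_iff_norm.2 (by linarith), subset_closure h1⟩ (f := fun z => ‖y - z‖)
    (by fun_prop)
  rw [isMinOn_iff] at hm
  have hK : (z, t) ∈ K1 F X δ := ⟨hz.2, hz.1, ht⟩
  have h4 : ‖y - z‖ ≤ ‖y - x‖ := hm x ⟨mem_closedBall_iff_norm.2 (by linarith), subset_closure h1⟩
  have h5 := norm_sub_le (y - X.1) (x - X.1)
  rw [sub_sub_sub_cancel_right] at h5
  have h6 := norm_sub_le (y - X.1) (y - z)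
  rw [sub_sub_sub_cancel_left] at h6
  have hM := (h.K1_sub hK).1
  have h70 : closedBall X.1 (90 * δ) ∈ 𝓝 z :=
    closedBall_mem_nhds_of_mem (mem_ball_iff_norm.2 (by linarith))
  have h7 : y - z = ⟪y - z, F.n (z, t)⟫_ℝ • F.n (z, t) := perp_of_min h.reg hM (c := y)
    (eventually_of_mem h70 fun u hu huM => hm u ⟨hu, subset_closure huM⟩)
  set a := ⟪y - z, F.n (z, t)⟫_ℝ
  have h8 : |a| ≤ 45 * δ := by
    have := abs_real_inner_le_norm (y - z) (F.n (z, t))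
    rw [h.reg.norm_n hM] at this
    linarith
  have h9 : |σ * a| ≤ 45 * δ := by
    rw [abs_mul, show |σ| = 1 by rcases mul_self_eq_one_iff.1 hσ with r | r <;> simp [r], one_mul]
    exact h8
  have h10 : y = z + a • F.n (z, t) := by rw [← h7]; simp
  rcases le_total 0 (σ * a) with h0 | h0
  · refine Or.inl ⟨((z, t), σ * a), ⟨hK, h0, (abs_le.1 h9).2⟩, ?_⟩
    simp only [← mul_assoc, hσ, one_mul, ← h10]
  · refine Or.inr ⟨((z, t), -(σ * a)), ⟨hK, by simpa using h0, by linarith [(abs_le.1 h9).1]⟩, ?_⟩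
    simp only [neg_mul_neg, ← mul_assoc, hσ, one_mul, ← h10]

theorem inter (hσ : σ * σ = 1) (h1 : q ∈ Sd F X δ σ) (h2 : q ∈ Sd F X δ (-σ)) : q ∈ F.M := by
  have hδ := h.pos
  obtain ⟨⟨p, s⟩, ⟨a1, a2, a3⟩, rfl⟩ := h1
  obtain ⟨⟨p', s'⟩, ⟨b1, b2, b3⟩, e⟩ := h2
  simp only [Prod.mk.injEq] at e a1 a2 a3 b1 b2 b3 ⊢
  have hσ' : |σ| = 1 := by rcases mul_self_eq_one_iff.1 hσ with r | r <;> simp [r]
  have c1 := h.K1_sub a1
  have c2 := h.K1_sub b1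
  have h3 := foot_unique (by positivity) h.reg c2.1 c1.1 e.2 (h.reach _ c2) (h.reach _ c1)
    (by rw [abs_mul, abs_neg, hσ', abs_of_nonneg b2]; linarith)
    (by rw [abs_mul, hσ', abs_of_nonneg a2]; linarith) e.1
  subst h3
  have h4 := congrArg (fun v => ⟪F.n p', v⟫_ℝ) (add_left_cancel e.1)
  simp only [inner_smul_right, h.reg.inner_n c1.1] at h4
  have h5 : s = 0 := by
    have : σ * (σ * (s + s')) = 0 := by linear_combination (-σ) * h4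
    rw [← mul_assoc, hσ] at this
    linarith
  simpa [h5] using c1.1

theorem sep (hσ : σ * σ = 1) {S : Set ST} (hS : IsPreconnected S)
    (hK : ∀ q ∈ S, ‖q.1 - X.1‖ ≤ 40 * δ ∧ q.2 ∈ TT X δ) (h1 : (S ∩ Sd F X δ σ).Nonempty)
    (h2 : (S ∩ Sd F X δ (-σ)).Nonempty) : (S ∩ F.M).Nonempty := by
  obtain ⟨q, a, b, c⟩ := isPreconnected_closed_iff.1 hS _ _ (h.closed_Sd σ) (h.closed_Sd (-σ))
    (fun q hq => h.cover hσ (hK q hq).1 (hK q hq).2) h1 h2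
  exact ⟨q, a, h.inter hσ b c⟩

theorem side (hσ : σ * σ = 1) (hy : ‖y - (X.1 + (σ * (20 * δ)) • F.n X)‖ < 20 * δ - δ / 100)
    (ht : t ∈ TT X δ) : (y, t) ∉ Sd F X δ (-σ) := by
  have hδ := h.pos
  have hσ' : |σ * (20 * δ)| = 20 * δ := by
    rcases mul_self_eq_one_iff.1 hσ with r | r <;> simp [r, abs_of_pos hδ]
  intro hm
  have h1 : ∀ q ∈ ball (X.1 + (σ * (20 * δ)) • F.n X) (20 * δ - δ / 100) ×ˢ TT X δ,
      ‖q.1 - X.1‖ ≤ 40 * δ ∧ q.2 ∈ TT X δ := fun q hq => by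
    have h1 := norm_add_le (q.1 - (X.1 + (σ * (20 * δ)) • F.n X)) ((σ * (20 * δ)) • F.n X)
    rw [norm_smul, h.unit, Real.norm_eq_abs, hσ', ← sub_sub, sub_add_cancel] at h1
    have := mem_ball_iff_norm.1 hq.1
    rw [← sub_sub] at this
    exact ⟨by linarith, hq.2⟩
  have h2 : X ∈ K1 F X δ := ⟨subset_closure h.mem, mem_closedBall_self (by positivity), h.top⟩
  have h3 : (X.1 + (σ * (20 * δ)) • F.n X, X.2) ∈ Sd F X δ σ :=
    ⟨(X, 20 * δ), ⟨h2, show 0 ≤ 20 * δ by positivity, show 20 * δ ≤ 45 * δ by linarith⟩, rfl⟩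
  obtain ⟨q, ⟨a, b⟩, c⟩ := h.sep hσ (isPreconnected_ball.prod isPreconnected_Icc) h1
    ⟨(X.1 + (σ * (20 * δ)) • F.n X, X.2), ⟨mem_ball_self (by linarith), h.top⟩, h3⟩
    ⟨(y, t), ⟨mem_ball_iff_norm.2 hy, ht⟩, hm⟩
  exact (h.free hσ' (y := q.1) c b).not_gt (mem_ball_iff_norm.1 a)

theorem pyth (hw : ⟪w, F.n X⟫_ℝ = 0) (s : ℝ) : ‖w + s • F.n X‖ ^ 2 = ‖w‖ ^ 2 + s ^ 2 := by
  rw [norm_add_sq_real, inner_smul_right, hw, norm_smul, h.unit]; simp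

theorem inball (hσ : σ * σ = 1) (hw : ⟪w, F.n X⟫_ℝ = 0) (hw' : ‖w‖ ≤ 2 * δ)
    (h1 : 12 * δ / 100 ≤ σ * s) (h2 : σ * s ≤ δ) :
    ‖X.1 + w + s • F.n X - (X.1 + (σ * (20 * δ)) • F.n X)‖ < 20 * δ - δ / 100 := by
  have hδ := h.pos
  rw [show X.1 + w + s • F.n X - (X.1 + (σ * (20 * δ)) • F.n X) =
    w + (s - σ * (20 * δ)) • F.n X by module]
  refine lt_of_pow_lt_pow_left₀ 2 (by linarith) ?_
  have h3 : ‖w‖ ^ 2 ≤ (2 * δ) ^ 2 := by gcongr
  have h4 : (s - σ * (20 * δ)) ^ 2 = (σ * s - 20 * δ) ^ 2 := by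
    linear_combination ((20 * δ) ^ 2 - s ^ 2) * hσ
  rw [h.pyth hw, h4]
  nlinarith [mul_nonneg (sub_nonneg.2 h1) (sub_nonneg.2 h2), mul_pos hδ hδ,
    mul_nonneg (sub_nonneg.2 h1) hδ.le]

theorem near (hw' : ‖w‖ ≤ 2 * δ) (hs : |s| ≤ δ) : ‖X.1 + w + s • F.n X - X.1‖ ≤ 3 * δ := by
  have := norm_add_le w (s • F.n X)
  rw [norm_smul, h.unit, Real.norm_eq_abs] at this
  rw [add_assoc, add_sub_cancel_left]; linarith

theorem slab (hw : ⟪w, F.n X⟫_ℝ = 0) (hw' : ‖w‖ ≤ 2 * δ) (ht : t ∈ TT X δ) (hs : |s| ≤ δ)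
    (hM : (X.1 + w + s • F.n X, t) ∈ F.M) : |s| < 12 * δ / 100 := by
  have hδ := h.pos
  by_contra! hlt
  rcases abs_cases s with r | r
  · exact (h.free (by simp [abs_of_pos hδ]) hM ht).not_gt
      (h.inball (σ := 1) (by simp) hw hw' (by linarith) (by linarith))
  · exact (h.free (by simp [abs_of_pos hδ]) hM ht).not_gt
      (h.inball (σ := -1) (by simp) hw hw' (by linarith) (by linarith))

theorem cross (hw : ⟪w, F.n X⟫_ℝ = 0) (hw' : ‖w‖ ≤ 2 * δ) (ht : t ∈ TT X δ) :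
    ∃ s, |s| ≤ δ ∧ (X.1 + w + s • F.n X, t) ∈ F.M := by
  have hδ := h.pos
  have h1 : ∀ s, |s| ≤ δ → ‖X.1 + w + s • F.n X - X.1‖ ≤ 40 * δ := fun s hs =>
    (h.near hw' hs).trans (by linarith)
  obtain ⟨_, ⟨s, hs, rfl⟩, hM⟩ := h.sep (σ := 1) (by simp)
    (S := (fun s : ℝ => (X.1 + w + s • F.n X, t)) '' Icc (-δ) δ)
    (isPreconnected_Icc.image _ (by fun_prop))
    (by rintro _ ⟨s, hs, rfl⟩; exact ⟨h1 s (abs_le.2 hs), ht⟩)
    ⟨(X.1 + w + δ • F.n X, t), ⟨δ, ⟨by linarith, le_rfl⟩, rfl⟩,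
      (h.cover (σ := 1) (by simp) (h1 δ (abs_of_pos hδ).le) ht).resolve_right
        (h.side (by simp) (h.inball (by simp) hw hw' (by linarith) (by linarith)) ht)⟩
    ⟨(X.1 + w + (-δ) • F.n X, t), ⟨-δ, ⟨le_rfl, by linarith⟩, rfl⟩,
      (h.cover (σ := -1) (by simp) (h1 (-δ) (by simp [abs_of_pos hδ])) ht).resolve_right
        (h.side (by simp) (h.inball (by simp) hw hw' (by linarith) (by linarith)) ht)⟩
  exact ⟨s, abs_le.2 hs, hM⟩

theorem tilt (hw : ⟪w, F.n X⟫_ℝ = 0) (hw' : ‖w‖ ≤ δ) (ht : t ∈ TT X δ) (hs : |s| ≤ δ)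
    (hM : (X.1 + w + s • F.n X, t) ∈ F.M) : 24 / 25 ≤ ⟪F.n (X.1 + w + s • F.n X, t), F.n X⟫_ℝ := by
  have hδ := h.pos
  have h3 := h.near (hw'.trans (by linarith)) hs
  have hs1 := h.slab hw (by linarith) ht hs hM
  have hP := h.pc' (h3.trans_lt (by linarith)) ht
  set p : ST := (X.1 + w + s • F.n X, t) with hp
  set a := ⟪F.n p, F.n X⟫_ℝ with ha
  set m := F.n p - a • F.n X with hm
  have hme : ⟪m, F.n X⟫_ℝ = 0 := by
    rw [hm, inner_sub_left, real_inner_smul_left, h.reg.inner_n h.mem]; ring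
  have hn : F.n p = m + a • F.n X := by rw [hm]; abel
  have h1 : ‖m‖ ^ 2 + a ^ 2 = 1 := by rw [← h.pyth hme, ← hn, h.reg.norm_n hM]; norm_num
  have h2 : ‖m‖ ≤ 1 / 4 := by
    by_contra! hlt
    have hm0 : 0 < ‖m‖ := by linarith
    have e1 : ‖(δ / ‖m‖) • m‖ = δ := by
      rw [norm_smul, Real.norm_of_nonneg (by positivity)]; field_simp
    have e2 : ⟪(δ / ‖m‖) • m, F.n X⟫_ℝ = 0 := by rw [real_inner_smul_left, hme, mul_zero]
    have e3 : ‖w + (δ / ‖m‖) • m‖ ≤ 2 * δ := (norm_add_le _ _).trans (by linarith)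
    have e4 : ⟪w + (δ / ‖m‖) • m, F.n X⟫_ℝ = 0 := by rw [inner_add_left, hw, e2, add_zero]
    obtain ⟨s', a1, a2⟩ := h.cross e4 e3 ht
    have a3 := h.slab e4 e3 ht a1 a2
    have a4 := reach_in (by positivity) (h.reg.norm_n hM) (h.reach p ⟨hM, hP⟩) a2
    rw [show X.1 + (w + (δ / ‖m‖) • m) + s' • F.n X - p.1 = (δ / ‖m‖) • m + (s' - s) • F.n X by
      rw [hp]; module, h.pyth e2, e1] at a4
    have a5 : ⟪(δ / ‖m‖) • m + (s' - s) • F.n X, F.n p⟫_ℝ = δ * ‖m‖ + (s' - s) * a := by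
      rw [inner_add_left, real_inner_smul_left, real_inner_smul_left, real_inner_comm (F.n p) (F.n X),
        ← ha]
      nth_rewrite 1 [hn]
      rw [inner_add_right, inner_smul_right, hme, real_inner_self_eq_norm_sq]
      field_simp; ring
    rw [a5] at a4
    have a6 : |s' - s| ≤ 24 * δ / 100 := (abs_sub _ _).trans (by linarith)
    have a7 : |a| ≤ 1 := abs_le_one_iff_mul_self_le_one.2 (by nlinarith)
    have a8 : |(s' - s) * a| ≤ 24 * δ / 100 * 1 := by rw [abs_mul]; gcongr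
    have a9 : (s' - s) ^ 2 ≤ (24 * δ / 100) ^ 2 := sq_le_sq' (abs_le.1 a6).1 (abs_le.1 a6).2
    have a10 : δ / 100 ≤ |δ * ‖m‖ + (s' - s) * a| :=
      le_trans (by nlinarith [(abs_le.1 a8).1]) (le_abs_self _)
    nlinarith [mul_pos hδ hδ]
  have h4 : ‖m‖ ^ 2 ≤ (1 / 4) ^ 2 := by gcongr
  by_contra! hlt
  have h5 : a ≤ -(24 / 25) := by nlinarith
  have h6 : -1 ≤ a := by nlinarith [sq_nonneg ‖m‖]
  have e1 : ‖w + (δ / 2) • m‖ ≤ 2 * δ := by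
    have := norm_add_le w ((δ / 2) • m)
    rw [norm_smul, Real.norm_of_nonneg (by positivity)] at this
    nlinarith
  have e2 : ⟪w + (δ / 2) • m, F.n X⟫_ℝ = 0 := by
    rw [inner_add_left, hw, real_inner_smul_left, hme]; ring
  refine h.side (σ := -1) (by simp) (h.inball (s := s + δ / 2 * a) (by simp) e2 e1
    (by nlinarith [(abs_lt.1 hs1).2]) (by nlinarith [(abs_lt.1 hs1).1])) ht
    ⟨(p, δ / 2), ⟨⟨subset_closure hM, mem_closedBall_iff_norm.2 (h3.trans (by linarith)), ht⟩,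
      by positivity, by linarith⟩, Prod.ext ?_ rfl⟩
  change p.1 + (- -1 * (δ / 2)) • F.n p = _
  rw [hn, hp]; module

/-- exactly one crossing, transversal -/
theorem line (hw : ⟪w, F.n X⟫_ℝ = 0) (hw' : ‖w‖ ≤ δ) (ht : t ∈ TT X δ) :
    ∃ s, |s| < δ ∧ (X.1 + w + s • F.n X, t) ∈ F.M ∧
      24 / 25 ≤ ⟪F.n (X.1 + w + s • F.n X, t), F.n X⟫_ℝ ∧
      ∀ s' ∈ Icc (-δ) δ, (X.1 + w + s' • F.n X, t) ∈ closure F.M → s' = s := by
  have hδ := h.pos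
  have hw2 : ‖w‖ ≤ 2 * δ := by linarith
  obtain ⟨s, h1, h2⟩ := h.cross hw hw2 ht
  have h3 := h.tilt hw hw' ht h1 h2
  refine ⟨s, (h.slab hw hw2 ht h1 h2).trans (by linarith), h2, h3, fun s' hs' hc => ?_⟩
  have h4 := h.prop _ hc (h.pc' ((h.near hw2 (abs_le.2 hs')).trans_lt (by linarith)) ht)
  have h5 := reach_in (by positivity) (h.reg.norm_n h2)
    (h.reach _ ⟨h2, h.pc' ((h.near hw2 h1).trans_lt (by linarith)) ht⟩) h4
  rw [show X.1 + w + s' • F.n X - (X.1 + w + s • F.n X, t).1 = (s' - s) • F.n X by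
    simp only []; module, real_inner_smul_left, real_inner_comm, norm_smul, h.unit, mul_one,
    Real.norm_eq_abs, abs_mul, abs_of_nonneg (le_trans (by norm_num) h3)] at h5
  have h6 : |s' - s| ≤ 2 * δ := (abs_sub _ _).trans (by linarith [abs_le.2 hs'])
  by_contra hne
  have h7 := abs_pos.2 (sub_ne_zero.2 hne)
  nlinarith [mul_pos h7 hδ]

end Hy

end Crest.Agent.N250.Gr

end
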