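import Crest.Agent.N250.Gr.Cross

/-!
# Row 250, graphs (helper2), part 3: the height function of the sheet through `X`
-/

set_option autoImplicit false
open Set Filter Topology Metric
open scoped ContDiff InnerProductSpace
open Crest.GeometryTopology.MCF

noncomputable section

namespace Crest.Agent.N250.Gr

variable {F : Mv} {X p q : ST} {δ s : ℝ}

/-- derivatives of maps into the track are tangent -/
theorem tg_of_maps (hF : F.Reg) {γ : ST → ST} {γ' : ST →L[ℝ] ST} (h : HasFDerivAt γ γ' q)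
    (hM : ∀ᶠ x in 𝓝 q, γ x ∈ F.M) (w : ST) : F.Tg (γ q) (γ' w) := by
  obtain ⟨W, φ, hW, hL⟩ := hF _ hM.self_of_nhds
  rw [hL.tg_iff hW hM.self_of_nhds]
  have h1 := (hL.diffAt hW).hasFDerivAt.comp q h
  have h2 : HasFDerivAt (φ ∘ γ) (0 : ST →L[ℝ] ℝ) q := by
    refine (hasFDerivAt_const (0 : ℝ) q).congr_of_eventuallyEq ?_
    filter_upwards [hM, h.continuousAt.eventually (hL.isOpen.mem_nhds hW)] with x a b
      using (hL.mem _ b).1 a
  exact congrArg (fun L : ST →L[ℝ] ℝ => L w) (h1.unique h2)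

section Defs

variable (F X δ)

/-- height over the tangent plane at `X` -/
def ht (q : ST) : ℝ := ⟪q.1 - X.1, F.n X⟫_ℝ

/-- projection to the tangent plane at `X` -/
def pr (q : ST) : ST := q - ht F X q • ((F.n X, 0) : ST)

/-- `s` is the only crossing height over `b` -/
def Cr (b : ST) (s : ℝ) : Prop :=
  |s| < δ ∧ b + s • ((F.n X, 0) : ST) ∈ F.M ∧ 0 < ⟪F.n (b + s • ((F.n X, 0) : ST)), F.n X⟫_ℝ ∧
    ∀ s' ∈ Icc (-δ) δ, b + s' • ((F.n X, 0) : ST) ∈ closure F.M → s' = s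

/-- domain of the height function -/
def GG : Set ST := {q | ∃ s, Cr F X δ (pr F X q) s}

/-- the height function -/
def uu (q : ST) : ℝ := Classical.epsilon (Cr F X δ (pr F X q))

/-- the defining function -/
def ph (q : ST) : ℝ := ht F X q - uu F X δ q

/-- projection to the sheet -/
def lift (q : ST) : ST := q - ph F X δ q • ((F.n X, 0) : ST)

end Defs

theorem lift_eq : lift F X δ q = pr F X q + uu F X δ q • ((F.n X, 0) : ST) := by
  rw [lift, pr, ph]; module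

theorem sm_ht : ContDiff ℝ ∞ (ht F X) := (contDiff_fst.sub contDiff_const).inner ℝ contDiff_const

theorem sm_pr : ContDiff ℝ ∞ (pr F X) := contDiff_id.sub (sm_ht.smul contDiff_const)

theorem fd_ht (q w : ST) : fderiv ℝ (ht F X) q w = ⟪w.1, F.n X⟫_ℝ := by
  have h1 : HasFDerivAt (fun q : ST => q.1 - X.1) (ContinuousLinearMap.fst ℝ E ℝ) q :=
    hasFDerivAt_fst.sub_const _
  have := (h1.inner ℝ (hasFDerivAt_const (F.n X) q)).fderiv
  rw [show ht F X = fun q : ST => ⟪q.1 - X.1, F.n X⟫_ℝ from rfl, this]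
  simp

theorem cr_u (h : q ∈ GG F X δ) : Cr F X δ (pr F X q) (uu F X δ q) := Classical.epsilon_spec h

theorem cr_eq (h : Cr F X δ (pr F X q) s) : uu F X δ q = s :=
  h.2.2.2 _ (abs_le.1 (cr_u ⟨s, h⟩).1.le) (subset_closure (cr_u ⟨s, h⟩).2.1)

theorem lift_mem (h : q ∈ GG F X δ) : lift F X δ q ∈ F.M := lift_eq ▸ (cr_u h).2.1

theorem lift_pos (h : q ∈ GG F X δ) : 0 < ⟪F.n (lift F X δ q), F.n X⟫_ℝ :=
  lift_eq ▸ (cr_u h).2.2.1

theorem ev_aux (hF : F.Reg) {L : ST × ℝ → ST} (hL : Continuous L) {ψ : ST → ℝ} {e : E}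
    (a1 : ContinuousAt ψ q) (a3 : ∀ᶠ z in 𝓝 (q, ψ q), L z ∈ F.M ↔ ψ z.1 = z.2) (h1 : |ψ q| < δ)
    (h2 : L (q, ψ q) ∈ F.M) (h3 : 0 < ⟪F.n (L (q, ψ q)), e⟫_ℝ)
    (h4 : ∀ s' ∈ Icc (-δ) δ, L (q, s') ∈ closure F.M → s' = ψ q) :
    ∀ᶠ x in 𝓝 q, |ψ x| < δ ∧ L (x, ψ x) ∈ F.M ∧ 0 < ⟪F.n (L (x, ψ x)), e⟫_ℝ ∧
      ∀ s' ∈ Icc (-δ) δ, L (x, s') ∈ closure F.M → s' = ψ x := by
  have b1 : Tendsto (fun x => ((x, ψ x) : ST × ℝ)) (𝓝 q) (𝓝 (q, ψ q)) :=
    (continuousAt_id.prodMk a1).tendsto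
  have b2 : ∀ᶠ x in 𝓝 q, L (x, ψ x) ∈ F.M := (b1.eventually a3).mono fun x hx => hx.2 rfl
  have b3 : Tendsto (fun x => L (x, ψ x)) (𝓝 q) (𝓝[F.M] (L (q, ψ q))) :=
    tendsto_nhdsWithin_iff.2 ⟨(hL.tendsto _).comp b1, b2⟩
  have b4 := (((hF.sm_n.continuousOn _ h2).tendsto.comp b3).inner (𝕜 := ℝ)
    (tendsto_const_nhds (x := e))).eventually (lt_mem_nhds h3)
  have b6 : ∀ᶠ x in 𝓝 q, ∀ s' ∈ Icc (-δ) δ, L (x, s') ∈ closure F.M → s' = ψ x := by
    refine isCompact_Icc.eventually_forall_of_forall_eventually fun s' hs' => ?_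
    by_cases e : s' = ψ q
    · subst e
      exact (a3.and ((hL.tendsto _).eventually (ev_closure hF h2))).mono fun z c c3 =>
        (c.1.1 (c.2 c3)).symm
    · exact ((hL.tendsto (q, s')).eventually
        (isClosed_closure.isOpen_compl.mem_nhds fun c => e (h4 s' hs' c))).mono fun z c1 c2 =>
        absurd c2 c1
  exact (a1.abs.eventually (gt_mem_nhds h1)).and (b2.and (b4.and b6))

theorem ev_cr (hF : F.Reg) (h : q ∈ GG F X δ) :
    ∃ ψ : ST → ℝ, ContDiffAt ℝ ∞ ψ q ∧ ∀ᶠ x in 𝓝 q, Cr F X δ (pr F X x) (ψ x) := by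
  obtain ⟨s, h1, h2, h3, h4⟩ := h
  obtain ⟨ψ, a1, rfl, a3⟩ := impl hF sm_pr h2 h3.ne'
  exact ⟨ψ, a1, ev_aux hF (L := fun z : ST × ℝ => pr F X z.1 + z.2 • ((F.n X, 0) : ST))
    ((sm_pr.continuous.comp continuous_fst).add (continuous_snd.smul continuous_const))
    a1.continuousAt a3 h1 h2 h3 h4⟩

theorem open_GG (hF : F.Reg) : IsOpen (GG F X δ) := isOpen_iff_mem_nhds.2 fun q hq => by
  obtain ⟨ψ, -, h⟩ := ev_cr hF hq
  exact h.mono fun x hx => ⟨_, hx⟩

theorem sm_uu (hF : F.Reg) : ContDiffOn ℝ ∞ (uu F X δ) (GG F X δ) := fun q hq => by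
  obtain ⟨ψ, h1, h⟩ := ev_cr hF hq
  exact (h1.congr_of_eventuallyEq (h.mono fun x hx => cr_eq hx)).contDiffWithinAt

theorem sm_ph (hF : F.Reg) : ContDiffOn ℝ ∞ (ph F X δ) (GG F X δ) :=
  sm_ht.contDiffOn.sub (sm_uu hF)

theorem sm_lift (hF : F.Reg) : ContDiffOn ℝ ∞ (lift F X δ) (GG F X δ) :=
  contDiffOn_id.sub ((sm_ph hF).smul contDiffOn_const)

theorem diff_ph (hF : F.Reg) (hq : q ∈ GG F X δ) : DifferentiableAt ℝ (ph F X δ) q :=
  ((sm_ph hF).contDiffAt ((open_GG hF).mem_nhds hq)).differentiableAt (by simp)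

theorem has_lift (hF : F.Reg) (hq : q ∈ GG F X δ) : HasFDerivAt (lift F X δ)
    (ContinuousLinearMap.id ℝ ST - (fderiv ℝ (ph F X δ) q).smulRight (F.n X, 0)) q :=
  (hasFDerivAt_id q).sub ((diff_ph hF hq).hasFDerivAt.smul_const _)

theorem ev_lift (hF : F.Reg) (hq : q ∈ GG F X δ) : ∀ᶠ x in 𝓝 q, lift F X δ x ∈ F.M :=
  eventually_of_mem ((open_GG hF).mem_nhds hq) fun _ hx => lift_mem hx

/-- the derivative of the defining function -/
theorem fd_ph (hF : F.Reg) (hq : q ∈ GG F X δ) (w : ST) : fderiv ℝ (ph F X δ) q w =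
    (⟪F.n (lift F X δ q), w.1⟫_ℝ - F.V (lift F X δ q) * w.2) *
      (⟪F.n (lift F X δ q), F.n X⟫_ℝ)⁻¹ := by
  have h1 := tg_of_maps hF (has_lift hF hq) (ev_lift hF hq) w
  have h2 := (lift_pos hq).ne'
  simp only [Mv.Tg, sub_apply, ContinuousLinearMap.id_apply,
    ContinuousLinearMap.smulRight_apply, Prod.fst_sub, Prod.snd_sub, Prod.smul_mk, smul_zero,
    sub_zero, inner_sub_right, inner_smul_right] at h1
  field_simp
  linarith

/-- chain rule for functions on the track -/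
theorem fd_lift (hF : F.Reg) (hq : q ∈ GG F X δ) {f : ST → ℝ} (hf : F.Sm f) (w : ST) :
    fderiv ℝ (fun x => f (lift F X δ x)) q w =
      F.td f (lift F X δ q) (w - fderiv ℝ (ph F X δ) q w • ((F.n X, 0) : ST)) := by
  have h1 := ((hf _ (lift_mem hq)).differentiableWithinAt (by simp)).hasFDerivWithinAt
  have h2 := h1.comp_hasFDerivAt q (has_lift hF hq) (ev_lift hF hq)
  exact congrArg (fun L : ST →L[ℝ] ℝ => L w) h2.fderiv

theorem sm_comp (hF : F.Reg) {f : ST → ℝ} (hf : F.Sm f) :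
    ContDiffOn ℝ ∞ (fun x => f (lift F X δ x)) (GG F X δ) :=
  ContDiffOn.comp hf (sm_lift hF) fun _ hx => lift_mem hx

theorem pr_shift (he : ‖F.n X‖ = 1) (q : ST) (s : ℝ) :
    pr F X (q.1 + s • F.n X, q.2) = pr F X q := by
  have : ht F X (q.1 + s • F.n X, q.2) = ht F X q + s := by
    simp only [ht]
    rw [add_sub_right_comm, inner_add_left, real_inner_smul_left, real_inner_self_eq_norm_sq, he]
    ring
  rw [pr, pr, this]
  ext1
  · simp only [Prod.fst_sub, Prod.smul_mk]; module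
  · simp

theorem uu_shift (he : ‖F.n X‖ = 1) (q : ST) (s : ℝ) :
    uu F X δ (q.1 + s • F.n X, q.2) = uu F X δ q := by rw [uu, uu, pr_shift he]

theorem grad_ph (hF : F.Reg) (hq : q ∈ GG F X δ) : gradX (ph F X δ) q.1 q.2 =
    (⟪F.n (lift F X δ q), F.n X⟫_ℝ)⁻¹ • F.n (lift F X δ q) := by
  refine ext_inner_right ℝ fun v => ?_
  rw [inner_gradX (diff_ph hF hq), fd_ph hF hq, real_inner_smul_left]
  simp [mul_comm]

/-- the sheet -/
theorem loc_ph (hF : F.Reg) : F.Loc (GG F X δ ∩ {q | |ht F X q| < δ}) (ph F X δ) := by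
  have key : ∀ q ∈ GG F X δ ∩ {q | |ht F X q| < δ}, q ∈ F.M ↔ ph F X δ q = 0 := fun q hq => by
    constructor
    · intro hM
      refine sub_eq_zero.2 ((cr_u hq.1).2.2.2 _ (abs_le.1 (le_of_lt hq.2)) ?_)
      rw [pr, sub_add_cancel]; exact subset_closure hM
    · intro h0
      have := lift_mem hq.1
      rwa [lift, h0, zero_smul, sub_zero] at this
  refine loc_of hF ((open_GG hF).inter (isOpen_lt sm_ht.continuous.abs continuous_const))
    ((sm_ph hF).mono inter_subset_left) key (F.n X) (fun q hq => ?_) fun q hq hM => ?_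
  · rw [grad_ph hF hq.1, real_inner_smul_left, inv_mul_cancel₀ (lift_pos hq.1).ne']
    exact one_pos
  · have := lift_pos hq.1
    rwa [lift, (key q hq).1 hM, zero_smul, sub_zero] at this

theorem Hy.core (h : Hy F X δ) (hq : q ∈ PC X (δ / 2)) : q ∈ GG F X δ ∧ |ht F X q| < δ ∧
    |ph F X δ q| ≤ 2 * δ ∧ 24 / 25 ≤ ⟪F.n (lift F X δ q), F.n X⟫_ℝ ∧
      lift F X δ q ∈ PC X (25 * δ) := by
  have hδ := h.pos
  have h1 : ‖q.1 - X.1‖ < δ / 2 := mem_ball_iff_norm.1 hq.1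
  have h2 : q.2 ∈ TT X δ := ⟨by nlinarith [hq.2.1], hq.2.2⟩
  have h3 : |ht F X q| < δ := by
    have := abs_real_inner_le_norm (q.1 - X.1) (F.n X)
    rw [h.unit] at this
    exact this.trans_lt (by linarith)
  set w := q.1 - X.1 - ht F X q • F.n X with hw
  have h4 : ⟪w, F.n X⟫_ℝ = 0 := by
    rw [hw, inner_sub_left, real_inner_smul_left, h.reg.inner_n h.mem, ht]; ring
  have h5 : ‖w‖ ≤ δ := by
    have := h.pyth h4 (ht F X q)
    rw [hw, sub_add_cancel, ← hw] at this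
    refine le_of_pow_le_pow_left₀ two_ne_zero hδ.le ?_
    nlinarith [norm_nonneg (q.1 - X.1), sq_nonneg (ht F X q)]
  have h6 : ∀ s : ℝ, pr F X q + s • ((F.n X, 0) : ST) = (X.1 + w + s • F.n X, q.2) := fun s => by
    rw [pr, hw]
    ext1
    · simp only [Prod.fst_add, Prod.fst_sub, Prod.smul_mk]; module
    · simp
  obtain ⟨s, a1, a2, a3, a4⟩ := h.line h4 h5 h2
  have h7 : Cr F X δ (pr F X q) s := by
    simp only [Cr, h6]
    exact ⟨a1, a2, lt_of_lt_of_le (by norm_num) a3, a4⟩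
  rw [lift_eq, ph, cr_eq h7, h6]
  exact ⟨⟨s, h7⟩, h3, (abs_sub _ _).trans (by linarith), a3,
    h.pc (by linarith) ((h.near (by linarith) a1.le).trans_lt (by linarith)) h2⟩

theorem Hy.grad_uu (h : Hy F X δ) (hq : q ∈ PC X (δ / 2)) :
    ‖gradX (uu F X δ) q.1 q.2‖ ≤ 1 / 2 := by
  obtain ⟨h1, -, -, h2, -⟩ := h.core hq
  have hd : DifferentiableAt ℝ (uu F X δ) q :=
    ((sm_uu h.reg).contDiffAt ((open_GG h.reg).mem_nhds h1)).differentiableAt (by simp)
  set a := ⟪F.n (lift F X δ q), F.n X⟫_ℝ with ha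
  have h3 : gradX (uu F X δ) q.1 q.2 = F.n X - a⁻¹ • F.n (lift F X δ q) := by
    rw [ha, ← grad_ph h.reg h1]
    refine ext_inner_right ℝ fun v => ?_
    rw [inner_sub_left, inner_gradX hd, inner_gradX (diff_ph h.reg h1),
      show ph F X δ = ht F X - uu F X δ from rfl,
      fderiv_sub (sm_ht.differentiable (by simp) q) hd, sub_apply, fd_ht,
      real_inner_comm]
    simp
  have h4 : 0 < a := lt_of_lt_of_le (by norm_num) h2
  have h5 : a⁻¹ ≤ 25 / 24 := by rw [inv_le_comm₀ h4 (by norm_num)]; linarith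
  refine le_of_pow_le_pow_left₀ two_ne_zero (by norm_num) ?_
  rw [h3, norm_sub_sq_real, inner_smul_right, real_inner_comm, ← ha, inv_mul_cancel₀ h4.ne',
    norm_smul, h.unit, h.reg.norm_n (lift_mem h1), Real.norm_of_nonneg (by positivity)]
  nlinarith [inv_pos.2 h4]

end Crest.Agent.N250.Gr

end
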