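import Crest.Agent.N250.Re.Basic

/-!
# Row 250, graphs (helper2), part 1: local facts about a moving surface
-/

set_option autoImplicit false
open Set Filter Topology Metric
open scoped ContDiff InnerProductSpace
open Crest.GeometryTopology.MCF

noncomputable section

namespace Crest.Agent.N250.Gr

variable {F : Mv} {p q : ST}

/-- the track is locally closed -/
theorem ev_closure (hF : F.Reg) (hp : p ∈ F.M) : ∀ᶠ q in 𝓝 p, q ∈ closure F.M → q ∈ F.M := by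
  obtain ⟨W, φ, hW, h⟩ := hF p hp
  filter_upwards [h.isOpen.mem_nhds hW] with q hq hc
  rw [h.mem q hq]
  have h1 : ∃ᶠ x in 𝓝 q, φ x ∈ ({0} : Set ℝ) :=
    ((mem_closure_iff_frequently.1 hc).and_eventually (h.isOpen.mem_nhds hq)).mono
      fun x hx => (h.mem x hx.2).1 hx.1
  simpa using mem_closure_of_frequently_of_tendsto h1 (h.contDiffAt hq).continuousAt

/-- a defining function with the right orientation is compatible with `n` and `V` -/
theorem loc_of (hF : F.Reg) {W : Set ST} {φ : ST → ℝ} (hW : IsOpen W) (hs : ContDiffOn ℝ ∞ φ W)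
    (hm : ∀ q ∈ W, q ∈ F.M ↔ φ q = 0) (e : E) (hg : ∀ q ∈ W, 0 < ⟪gradX φ q.1 q.2, e⟫_ℝ)
    (hn : ∀ q ∈ W, q ∈ F.M → 0 < ⟪F.n q, e⟫_ℝ) : F.Loc W φ := by
  have key : ∀ q ∈ W, q ∈ F.M → gradX φ q.1 q.2 = ‖gradX φ q.1 q.2‖ • F.n q ∧
      F.V q * ‖gradX φ q.1 q.2‖ + dT φ q = 0 := by
    intro q hq hM
    have hd : DifferentiableAt ℝ φ q :=
      (hs.contDiffAt (hW.mem_nhds hq)).differentiableAt (by simp)
    have h0 : ∀ w, F.Tg q w → fderiv ℝ φ q w = 0 := fun w hw => by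
      have h1 : HasFDerivWithinAt φ (0 : ST →L[ℝ] ℝ) F.M q := by
        refine (hasFDerivWithinAt_const (0 : ℝ) q F.M).congr_of_eventuallyEq ?_ ((hm q hq).1 hM)
        filter_upwards [nhdsWithin_le_nhds (hW.mem_nhds hq), self_mem_nhdsWithin] with x hx hxM
          using (hm x hx).1 hxM
      exact hF.unique_tg hM hd.hasFDerivAt.hasFDerivWithinAt h1 hw
    set g := gradX φ q.1 q.2 with hgd
    have h1 : g = ⟪g, F.n q⟫_ℝ • F.n q := by
      refine ext_inner_right ℝ fun v => ?_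
      have := h0 _ (hF.tg_PL hM v)
      rw [← inner_gradX hd, ← hgd, Mv.PL, inner_sub_right, inner_smul_right] at this
      rw [real_inner_smul_left]; linarith
    have h2 : 0 < ⟪g, F.n q⟫_ℝ := by
      have h3 := hg q hq
      rw [← hgd, h1, real_inner_smul_left] at h3
      exact (pos_iff_pos_of_mul_pos h3).2 (hn q hq hM)
    have h3 : ‖g‖ = ⟪g, F.n q⟫_ℝ := by
      conv_lhs => rw [h1, norm_smul, hF.norm_n hM, mul_one, Real.norm_of_nonneg h2.le]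
    refine ⟨h3 ▸ h1, ?_⟩
    have := h0 _ (hF.tg_vel hM)
    rw [fderiv_split hd, ← hgd, inner_smul_right] at this
    rw [h3]; linarith
  have hne : ∀ q ∈ W, gradX φ q.1 q.2 ≠ 0 := fun q hq h0 => by
    have := hg q hq
    rw [h0, inner_zero_left] at this
    exact lt_irrefl _ this
  refine ⟨hW, hs, hne, hm, fun q hq hM => ?_, fun q hq hM => ?_⟩
  · have h1 := norm_ne_zero_iff.2 (hne q hq)
    conv_rhs => rw [(key q hq hM).1, norm_smul, norm_norm, hF.norm_n hM, mul_one, smul_smul,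
      inv_mul_cancel₀ h1, one_smul]
  · have h1 := norm_ne_zero_iff.2 (hne q hq)
    rw [eq_div_iff h1]; linarith [(key q hq hM).2]

/-- implicit function along a transversal direction -/
theorem impl (hF : F.Reg) {A : ST → ST} (hA : ContDiff ℝ ∞ A) {e : E} {s : ℝ}
    (hp : A q + s • ((e, 0) : ST) ∈ F.M) (he : ⟪F.n (A q + s • ((e, 0) : ST)), e⟫_ℝ ≠ 0) :
    ∃ ψ : ST → ℝ, ContDiffAt ℝ ∞ ψ q ∧ ψ q = s ∧
      ∀ᶠ z in 𝓝 ((q, s) : ST × ℝ), A z.1 + z.2 • ((e, 0) : ST) ∈ F.M ↔ ψ z.1 = z.2 := by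
  obtain ⟨W, φ, hW, h⟩ := hF _ hp
  have hL : ContDiff ℝ ∞ fun z : ST × ℝ => A z.1 + z.2 • ((e, 0) : ST) :=
    (hA.comp contDiff_fst).add (contDiff_snd.smul contDiff_const)
  have hf : ContDiffAt ℝ ∞ (fun z : ST × ℝ => φ (A z.1 + z.2 • ((e, 0) : ST))) (q, s) :=
    ContDiffAt.comp (q, s) (g := φ) (h.contDiffAt hW) hL.contDiffAt
  have hn : (∞ : WithTop ℕ∞) ≠ 0 := by simp
  set c := fderiv ℝ φ (A q + s • ((e, 0) : ST)) (e, 0) with hc
  have hc0 : c ≠ 0 := by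
    rw [hc, h.fderiv_eq hW hp]
    exact mul_ne_zero (h.norm_pos hW).ne' (by simpa using he)
  have h1 : HasDerivAt (fun t : ℝ => φ (A q + t • ((e, 0) : ST))) c s :=
    HasFDerivAt.comp_hasDerivAt s (l := φ) (h.diffAt hW).hasFDerivAt
      (by simpa using ((hasDerivAt_id s).smul_const ((e, 0) : ST)).const_add (A q))
  have h2 := HasFDerivAt.comp s (f := fun t : ℝ => ((q, t) : ST × ℝ))
    (hf.differentiableAt hn).hasFDerivAt (hasFDerivAt_prodMk_right q s)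
  have h3 := h2.unique h1.hasFDerivAt
  have hi : (fderiv ℝ (fun z : ST × ℝ => φ (A z.1 + z.2 • ((e, 0) : ST))) (q, s) ∘L
      ContinuousLinearMap.inr ℝ ST ℝ).IsInvertible :=
    ⟨ContinuousLinearEquiv.unitsEquivAut ℝ (Units.mk0 c hc0), by rw [h3]; ext; simp⟩
  refine ⟨hf.implicitFunction hn hi, hf.contDiffAt_implicitFunction hn hi,
    hf.implicitFunction_apply_self hn hi, ?_⟩
  filter_upwards [hf.eventually_apply_eq_iff_implicitFunction hn hi,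
    hL.continuous.continuousAt.eventually (h.isOpen.mem_nhds hW)] with z h4 h5
  rw [h.mem _ h5, ← h4, (h.mem _ hW).1 hp]

/-- a curve on the track with a given tangent vector -/
theorem exists_curve (hF : F.Reg) (hp : p ∈ F.M) {w : ST} (hw : F.Tg p w) :
    ∃ γ : ℝ → E, γ 0 = p.1 ∧ HasDerivAt γ w.1 0 ∧ ∀ᶠ s in 𝓝 (0 : ℝ), (γ s, p.2 + s * w.2) ∈ F.M := by
  obtain ⟨U, π, hr⟩ := hF.exists_retr hp
  have d := ((hr.sm.contDiffAt (hr.isOpen.mem_nhds hr.mem)).differentiableAt (by simp)).hasFDerivAt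
  have h1 : HasDerivAt (fun s : ℝ => p + s • w) w 0 := by
    simpa using ((hasDerivAt_id (0 : ℝ)).smul_const w).const_add p
  have h2 : HasDerivAt (fun s : ℝ => π (p + s • w)) w 0 := by
    have := HasFDerivAt.comp_hasDerivAt_of_eq (0 : ℝ) d h1 (by simp)
    rwa [hr.der w hw] at this
  refine ⟨fun s => (π (p + s • w)).1, by simp [hr.fix p hr.mem hp], h2.fst, ?_⟩
  have h3 : ∀ᶠ s in 𝓝 (0 : ℝ), p + s • w ∈ U :=
    h1.continuousAt.eventually (by simpa using hr.isOpen.mem_nhds hr.mem)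
  filter_upwards [h3] with s hs
  have h4 : p.2 + s * w.2 = (π (p + s • w)).2 := by rw [hr.time _ hs]; rfl
  rw [h4]; exact hr.maps hs

theorem near_time (hF : F.Reg) (hp : p ∈ F.M) {Λ : ℝ} (hΛ : |F.V p| < Λ) :
    ∀ᶠ s in 𝓝 (0 : ℝ), ∃ y, (y, p.2 + s) ∈ F.M ∧ ‖y - p.1‖ ≤ Λ * |s| := by
  obtain ⟨γ, h0, h1, h2⟩ := exists_curve hF hp (hF.tg_vel hp)
  filter_upwards [h2, h1.isLittleO.def (sub_pos.2 hΛ)] with s h3 h4
  refine ⟨γ s, by simpa using h3, ?_⟩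
  have h5 : ‖(s - 0) • F.V p • F.n p‖ = |s| * |F.V p| := by
    rw [norm_smul, norm_smul, hF.norm_n hp]; simp
  have h6 := norm_add_le (γ s - γ 0 - (s - 0) • F.V p • F.n p) ((s - 0) • F.V p • F.n p)
  rw [sub_add_cancel, h5, h0] at h6
  rw [h0, Real.norm_eq_abs, sub_zero] at h4
  rw [sub_zero] at h6
  linarith

/-- a nearest point is a foot of a normal line -/
theorem perp_of_min (hF : F.Reg) (hp : p ∈ F.M) {c : E}
    (hm : ∀ᶠ y in 𝓝 p.1, (y, p.2) ∈ F.M → ‖c - p.1‖ ≤ ‖c - y‖) :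
    c - p.1 = ⟪c - p.1, F.n p⟫_ℝ • F.n p := by
  refine ext_inner_right ℝ fun v => ?_
  obtain ⟨γ, h0, h1, h2⟩ := exists_curve hF hp (hF.tg_PL hp v)
  have h3 : IsLocalMin (fun s => ‖c - γ s‖ ^ 2) 0 := by
    filter_upwards [h2, h1.continuousAt.eventually (by rw [h0]; exact hm)] with s h4 h5
    have := h5 (by simpa using h4)
    simp only [h0]
    gcongr
  have h4 := h3.hasDerivAt_eq_zero (h1.const_sub c).norm_sq
  rw [h0, inner_neg_right, Mv.PL, inner_sub_right, inner_smul_right] at h4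
  rw [real_inner_smul_left]; linarith

/-- points can be followed forwards and backwards in time -/
theorem speed (hF : F.Reg) {Ω : Set ST} (hP : F.Proper Ω) {Λ : ℝ}
    (hV : ∀ p ∈ F.M ∩ Ω, |F.V p| < Λ) {y : E} {t₁ t₂ : ℝ} (hy : (y, t₁) ∈ F.M)
    (hΩ : ∀ x t, t ∈ uIcc t₁ t₂ → ‖x - y‖ ≤ Λ * |t - t₁| → (x, t) ∈ Ω) :
    ∃ x, (x, t₂) ∈ F.M ∧ ‖x - y‖ ≤ Λ * |t₂ - t₁| := by
  set S : Set ST := {p | p ∈ closure F.M ∧ p.2 ∈ uIcc t₁ t₂ ∧ ‖p.1 - y‖ ≤ Λ * |p.2 - t₁|}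
  have hΛ : 0 ≤ Λ := ((abs_nonneg _).trans_lt (hV _ ⟨hy, hΩ y t₁ left_mem_uIcc (by simp)⟩)).le
  have hc : IsCompact S := by
    refine ((isCompact_closedBall y (Λ * |t₂ - t₁|)).prod isCompact_uIcc).of_isClosed_subset
      (isClosed_closure.inter ((isCompact_uIcc.isClosed.preimage continuous_snd).inter
        (isClosed_le (f := fun p : ST => ‖p.1 - y‖) (g := fun p : ST => Λ * |p.2 - t₁|)
          (by fun_prop) (by fun_prop)))) fun p hp => ⟨?_, hp.2.1⟩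
    rw [mem_closedBall, dist_eq_norm]
    exact hp.2.2.trans (mul_le_mul_of_nonneg_left (abs_sub_left_of_mem_uIcc hp.2.1) hΛ)
  obtain ⟨p, hp, hm⟩ := hc.exists_isMinOn ⟨(y, t₁), subset_closure hy, left_mem_uIcc, by simp⟩
    (f := fun p => |t₂ - p.2|) (by fun_prop)
  have hpΩ : p ∈ Ω := hΩ p.1 p.2 hp.2.1 hp.2.2
  have hpM := hP p hp.1 hpΩ
  by_cases h : p.2 = t₂
  · exact ⟨p.1, h ▸ hpM, h ▸ hp.2.2⟩
  exfalso
  have h1 : Tendsto (fun θ : ℝ => θ * (t₂ - p.2)) (𝓝[>] 0) (𝓝 0) :=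
    tendsto_nhdsWithin_of_tendsto_nhds (Continuous.tendsto' (by fun_prop) _ _ (by simp))
  obtain ⟨θ, ⟨x, hx, hx'⟩, h2, h3⟩ := ((h1.eventually (near_time hF hpM (hV p ⟨hpM, hpΩ⟩))).and
    (Ioo_mem_nhdsGT zero_lt_one)).exists
  have h4 : 0 < |t₂ - p.2| := abs_pos.2 (sub_ne_zero.2 (Ne.symm h))
  have h5 : p.2 + θ * (t₂ - p.2) ∈ uIcc t₁ t₂ ∧
      |p.2 + θ * (t₂ - p.2) - t₁| = |p.2 - t₁| + |θ * (t₂ - p.2)| := by
    have h6 := hp.2.1
    rcases le_total t₁ t₂ with h7 | h7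
    · rw [uIcc_of_le h7] at h6 ⊢
      have : 0 ≤ θ * (t₂ - p.2) := mul_nonneg h2.le (sub_nonneg.2 h6.2)
      refine ⟨⟨by linarith [h6.1], by nlinarith [h6.2]⟩, ?_⟩
      rw [abs_of_nonneg this, abs_of_nonneg (sub_nonneg.2 h6.1),
        abs_of_nonneg (by linarith [h6.1])]
      ring
    · rw [uIcc_of_ge h7] at h6 ⊢
      have : θ * (t₂ - p.2) ≤ 0 := mul_nonpos_of_nonneg_of_nonpos h2.le (sub_nonpos.2 h6.1)
      refine ⟨⟨by nlinarith [h6.1], by linarith [h6.2]⟩, ?_⟩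
      rw [abs_of_nonpos this, abs_of_nonpos (sub_nonpos.2 h6.2),
        abs_of_nonpos (by linarith [h6.2])]
      ring
  have h6 : |t₂ - p.2| ≤ |t₂ - (p.2 + θ * (t₂ - p.2))| := hm (a := (x, p.2 + θ * (t₂ - p.2)))
    ⟨subset_closure hx, h5.1, by
      have := norm_add_le (x - p.1) (p.1 - y)
      rw [sub_add_sub_cancel] at this
      change ‖x - y‖ ≤ Λ * |p.2 + θ * (t₂ - p.2) - t₁|
      rw [h5.2]; linarith [hp.2.2]⟩
  rw [show t₂ - (p.2 + θ * (t₂ - p.2)) = (1 - θ) * (t₂ - p.2) by ring, abs_mul,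
    abs_of_pos (sub_pos.2 h3)] at h6
  nlinarith

end Crest.Agent.N250.Gr

end
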