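import Crest.Agent.N250.Gr.Graph
import Crest.Agent.N250.Gr.Alg
import Crest.Agent.N250.Tr.Base
import Crest.Agent.N250.T.Stm

/-!
# Row 250, graphs (helper2), part 5: all spacetime jets of the sheet; `SheetS`
-/

set_option autoImplicit false
open Set Filter Topology Metric
open scoped ContDiff InnerProductSpace
open Crest.GeometryTopology.MCF

noncomputable section

namespace Crest.Agent.N250.Gr

variable {F : Mv} {X p q : ST} {δ : ℝ}

theorem spd_of (hR : ReachAS) (hF : F.IsMCF) (hp : p ∈ F.M) {ρ : ℝ} (hρ : 0 < ρ)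
    (h : F.Reach p ρ) : |F.V p| < 4 / ρ := by
  have h1 : ∀ a, |F.A a a p| ≤ 1 / ρ := fun a => by
    simpa [Pi.single_apply] using (hR F hF.1 p hp ρ hρ h).1 (Pi.single a 1)
  have h2 := Finset.abs_sum_le_sum_abs (fun a => F.A a a p) Finset.univ
  rw [hF.2 p hp, abs_neg, Mv.H, Finset.sum_apply]
  rw [Fin.sum_univ_three fun a => |F.A a a p|] at h2
  have h3 : 4 / ρ = 4 * (1 / ρ) := by ring
  linarith [h1 0, h1 1, h1 2, one_div_pos.2 hρ]

theorem hy_of (hR : ReachAS) (hδ : 0 < δ) (hF : F.IsMCF) (hX : X ∈ F.M)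
    (hP : F.Proper (PC X (100 * δ))) (h : ∀ p ∈ F.M ∩ PC X (100 * δ), F.Reach p (100 * δ)) :
    Hy F X δ :=
  ⟨hF.1, hδ, hX, hP, h, fun p hp => (spd_of hR hF hp.1 (by positivity) (h p hp)).trans_eq (by
    field_simp; norm_num)⟩

theorem pc_mono {r r' : ℝ} (h0 : 0 ≤ r) (h : r ≤ r') : PC X r ⊆ PC X r' :=
  prod_mono (ball_subset_ball h) (Ioc_subset_Ioc_left (by gcongr))

theorem sum_nu (hF : F.Reg) (hp : p ∈ F.M) : ∑ a, F.nu a p * F.nu a p = 1 := by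
  rw [← hF.inner_n hp, inner_eq_sum]; rfl

theorem sum_nu_D (hF : F.Reg) (hp : p ∈ F.M) (f : ST → ℝ) : ∑ a, F.nu a p * F.D a f p = 0 := by
  have := Tr.td_PL (F := F) f p (F.n p)
  rw [Mv.PL, hF.inner_n hp, one_smul, sub_self, Prod.mk_zero_zero, map_zero] at this
  exact this.symm

theorem fd_ph_sp (hF : F.Reg) (hq : q ∈ GG F X δ) (b : Fin 3) : fderiv ℝ (ph F X δ) q (ee b, 0) =
    F.nu b (lift F X δ q) * (⟪F.n (lift F X δ q), F.n X⟫_ℝ)⁻¹ := by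
  rw [fd_ph hF hq, inner_ee, mul_zero, sub_zero]; rfl

theorem fd_lift_sp (hF : F.Reg) (hq : q ∈ GG F X δ) {f : ST → ℝ} (hf : F.Sm f) (b : Fin 3) :
    fderiv ℝ (fun x => f (lift F X δ x)) q (ee b, 0) = F.D b f (lift F X δ q) -
      F.nu b (lift F X δ q) * (⟪F.n (lift F X δ q), F.n X⟫_ℝ)⁻¹ *
        ∑ c, F.n X c * F.D c f (lift F X δ q) := by
  rw [fd_lift hF hq hf, fd_ph_sp hF hq, ← Tr.td_PL, Tr.D_def, ← smul_eq_mul _ (F.td _ _ _), ← map_smul,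
    ← map_sub]
  congr 1
  have h := (lift_pos hq).ne'
  ext1
  · simp only [Prod.fst_sub, Prod.smul_mk, Mv.PL, inner_ee, Mv.nu, smul_sub, smul_smul]
    rw [mul_assoc, inv_mul_cancel₀ h]; module
  · simp

/-- all flows with the hypotheses at scale `δ` -/
def Ix (δ : ℝ) : Type := {z : Mv × ST // z.1.IsMCF ∧ Hy z.1 z.2 δ}

section Fam

variable (δ)

/-- jets of the normal over the tangent plane -/
def gN (w : List (Fin 3)) (a : Fin 3) : Ix δ → ST → ℝ :=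
  fun i q => i.1.1.DL w (i.1.1.nu a) (lift i.1.1 i.1.2 δ q)

/-- cosine of the tilt -/
def gC : Ix δ → ST → ℝ := fun i q => ⟪i.1.1.n (lift i.1.1 i.1.2 δ q), i.1.1.n i.1.2⟫_ℝ

/-- bounded smooth families -/
abbrev P0 : (Ix δ → ST → ℝ) → Prop :=
  Bd (fun i => GG i.1.1 i.1.2 δ) fun i => PC i.1.2 (δ / 2)

/-- spatial directions -/
abbrev Ds : Set ST := range fun b : Fin 3 => (ee b, 0)

theorem G0 : Good (fun i : Ix δ => GG i.1.1 i.1.2 δ) (P0 δ) :=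
  good_Bd (fun i => open_GG i.2.1.1) fun i _ hq => (i.2.2.core hq).1

variable {δ}

theorem abs_e (a : Fin 3) (i : Ix δ) : |i.1.1.n i.1.2 a| ≤ 1 :=
  (PiLp.norm_apply_le (i.1.1.n i.1.2) a).trans_eq i.2.2.unit

theorem gC_of {P : (Ix δ → ST → ℝ) → Prop} (G : Good (fun i : Ix δ => GG i.1.1 i.1.2 δ) P)
    (h : ∀ a, P (gN δ [] a)) : P (gC δ) :=
  G.congr (G.sum Finset.univ fun a _ => G.mul (h a) (G.const _ 1 (abs_e a)))
    fun _ _ _ => inner_eq_sum _ _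

theorem gC_inv (i : Ix δ) (q : ST) (hq : q ∈ GG i.1.1 i.1.2 δ) : (gC δ i q)⁻¹ * gC δ i q = 1 :=
  inv_mul_cancel₀ (lift_pos hq).ne'

theorem p0_gN (hR : ReachAS) (hB : BernS) (w : List (Fin 3)) (a : Fin 3) : P0 δ (gN δ w a) := by
  obtain ⟨C, hC⟩ := hB w.length
  refine ⟨fun i => sm_comp i.2.1.1 (Tr.sm_DL i.2.1.1 (Tr.sm_nu i.2.1.1 a) w),
    C / (50 * δ) ^ w.length, fun ⟨⟨F, X⟩, hF, h⟩ q hq => ?_⟩
  have hδ := h.pos
  have hs : PC X (50 * δ) ⊆ PC X (100 * δ) := pc_mono (by positivity) (by linarith)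
  obtain ⟨h1, -, -, -, h2⟩ := h.core hq
  refine hC F X (50 * δ) hF (by positivity) (fun p hp h' => h.prop p hp (hs h')) (fun p hp => ?_) _
    ⟨lift_mem h1, by rwa [show 50 * δ / 2 = 25 * δ by ring]⟩ a w rfl
  refine (hR F hF.1 p hp.1 _ (by positivity) (h.reach p ⟨hp.1, hs hp.2⟩)).2.trans ?_
  rw [div_le_div_iff₀ (by positivity) (by positivity)]
  nlinarith [mul_pos hδ hδ]

theorem p0_inv (h : P0 δ (gC δ)) : P0 δ fun i q => (gC δ i q)⁻¹ := by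
  refine ⟨fun i => (h.1 i).inv fun q hq => (lift_pos hq).ne', 25 / 24, fun i q hq => ?_⟩
  obtain ⟨h1, -, -, h2, -⟩ := i.2.2.core hq
  simp only [gC]
  rw [abs_of_pos (inv_pos.2 (lift_pos h1)), inv_le_comm₀ (lift_pos h1) (by norm_num)]
  exact le_trans (by norm_num) h2

theorem pd_gN (w : List (Fin 3)) (a b : Fin 3) (i : Ix δ) (q : ST) (hq : q ∈ GG i.1.1 i.1.2 δ) :
    pd (ee b, 0) (gN δ w a) i q = gN δ (b :: w) a i q -
      gN δ [] b i q * (gC δ i q)⁻¹ * ∑ c, i.1.1.n i.1.2 c * gN δ (c :: w) a i q :=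
  fd_lift_sp i.2.1.1 hq (Tr.sm_DL i.2.1.1 (Tr.sm_nu i.2.1.1 a) w) b

variable (h0 : ∀ w a, P0 δ (gN δ w a))
include h0

theorem p1_gN (w : List (Fin 3)) (a : Fin 3) : All (P0 δ) Ds (gN δ w a) := by
  intro m
  induction m generalizing w a with
  | zero => exact h0 w a
  | succ m ih =>
    refine ⟨h0 w a, ?_⟩
    rintro _ ⟨b, rfl⟩
    have G := (G0 δ).it Ds m
    have hr := (G0 δ).it_inv (p0_inv (gC_of (G0 δ) (h0 []))) gC_inv (gC_of G (ih []))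
    exact G.congr (G.sub (ih _ _) (G.mul (G.mul (ih _ _) hr) (G.sum Finset.univ fun c _ =>
      G.mul (G.const _ 1 (abs_e c)) (ih (c :: w) a)))) (pd_gN w a b)

theorem p1_gC : All (P0 δ) Ds (gC δ) := gC_of ((G0 δ).all Ds) (p1_gN h0 [])

theorem p1_inv : All (P0 δ) Ds fun i q => (gC δ i q)⁻¹ := fun m =>
  (G0 δ).it_inv (p0_inv (p1_gC h0 0)) gC_inv (p1_gC h0 m)

theorem p1_ph : All (P0 δ) Ds fun i : Ix δ => ph i.1.1 i.1.2 δ := by
  refine All.intro ⟨fun i => sm_ph i.2.1.1, 2 * δ, fun i q hq => (i.2.2.core hq).2.2.1⟩ ?_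
  rintro _ ⟨b, rfl⟩
  exact ((G0 δ).all Ds).congr (((G0 δ).all Ds).mul (p1_gN h0 [] b) (p1_inv h0))
    fun i q hq => fd_ph_sp i.2.1.1 hq b

theorem p2_ph : All (All (P0 δ) Ds) {(0, 1)} fun i : Ix δ => ph i.1.1 i.1.2 δ := by
  intro k
  induction k with
  | zero => exact p1_ph h0
  | succ k ih =>
    refine ⟨p1_ph h0, ?_⟩
    rintro _ rfl
    have G1 := (G0 δ).all Ds
    have G := G1.it {(0, 1)} k
    have hd : ∀ (b : Fin 3) {f : Ix δ → ST → ℝ}, It (All (P0 δ) Ds) {(0, 1)} k f →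
        It (All (P0 δ) Ds) {(0, 1)} k (pd (ee b, 0) f) := fun b f hf =>
      G1.it_pd (fun h => h.pd ⟨b, rfl⟩) hf
    have e1 : ∀ b (i : Ix δ), ∀ q ∈ GG i.1.1 i.1.2 δ,
        pd (ee b, 0) (fun i : Ix δ => ph i.1.1 i.1.2 δ) i q = gN δ [] b i q * (gC δ i q)⁻¹ :=
      fun b i q hq => fd_ph_sp i.2.1.1 hq b
    have e2 : ∀ i : Ix δ, ∀ q ∈ GG i.1.1 i.1.2 δ, ∑ b, gN δ [] b i q * gN δ [] b i q = 1 :=
      fun i q hq => sum_nu i.2.1.1 (lift_mem hq)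
    have e3 : ∀ i : Ix δ, ∀ q ∈ GG i.1.1 i.1.2 δ, gC δ i q * (gC δ i q)⁻¹ = 1 :=
      fun i q hq => (mul_comm _ _).trans (gC_inv i q hq)
    have hr := G1.it_sqrt (p1_inv h0) (p1_gC h0) e3 (fun i q hq => ?_)
      (G.sum Finset.univ fun b _ => G.mul (hd b ih) (hd b ih))
    swap
    · simp only [e1 _ i q hq, Fin.sum_univ_three]
      have := e2 i q hq
      rw [Fin.sum_univ_three] at this
      linear_combination (-(gC δ i q)⁻¹ * (gC δ i q)⁻¹) * this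
    have hc := G1.it_inv (p1_gC h0) e3 hr
    have hn : ∀ b, It (All (P0 δ) Ds) {(0, 1)} k (gN δ [] b) := fun b =>
      G.congr (G.mul (hd b ih) hc) fun i q hq => by
        rw [e1 b i q hq, mul_assoc, gC_inv i q hq, mul_one]
    have hA : ∀ b a, It (All (P0 δ) Ds) {(0, 1)} k (gN δ [b] a) := fun b a =>
      G.congr (G.sub (hd b (hn a)) (G.mul (hn b) (G.sum Finset.univ fun c _ =>
        G.mul (hn c) (hd c (hn a))))) fun i q hq => by
        have h1 := e2 i q hq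
        have h2 : ∑ c, gN δ [] c i q * gN δ [c] a i q = 0 := sum_nu_D i.2.1.1 (lift_mem hq) _
        simp only [pd_gN _ _ _ i q hq]
        generalize ∑ c, i.1.1.n i.1.2 c * gN δ [c] a i q = S
        rw [Fin.sum_univ_three] at h1 h2 ⊢
        linear_combination gN δ [] b i q * h2 - gN δ [] b i q * (gC δ i q)⁻¹ * S * h1
    refine G.congr (G.mul (G.sum Finset.univ fun a _ => hA a a) hr) fun i q hq => ?_
    refine (fd_ph i.2.1.1 hq _).trans ?_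
    rw [i.2.1.2 _ (lift_mem hq), inner_zero_right, Mv.H, Finset.sum_apply, mul_one, zero_sub,
      neg_neg]
    rfl

omit h0

theorem p2_ht : All (All (P0 δ) Ds) {(0, 1)} fun i : Ix δ => ht i.1.1 i.1.2 := by
  have G1 := (G0 δ).all Ds
  refine All.intro (All.intro ⟨fun i => sm_ht.contDiffOn, δ, fun i q hq =>
    (i.2.2.core hq).2.1.le⟩ ?_) ?_
  · rintro _ ⟨b, rfl⟩
    exact G1.congr (G1.const _ 1 (abs_e b)) fun i q _ =>
      (fd_ht _ _).trans ((real_inner_comm _ _).trans (inner_ee _ _))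
  · rintro _ rfl
    exact (G1.all _).congr ((G1.all _).num 0) fun i q _ => (fd_ht _ _).trans (inner_zero_left _)

theorem p2_jets {f : Ix δ → ST → ℝ} (hf : All (All (P0 δ) Ds) {(0, 1)} f) (m : ℕ) :
    ∃ C, ∀ i : Ix δ, ∀ q ∈ PC i.1.2 (δ / 2), ‖iteratedFDeriv ℝ m (f i) q‖ ≤ C := by
  have G1 := (G0 δ).all Ds
  refine (G1.all _).jets (fun i _ hq => (i.2.2.core hq).1) (fun h => (h 0 0).2)
    (fun k : Option (Fin 3) => k.elim ((0, 1) : ST) fun b => (ee b, 0))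
    (fun k => k.elim (ContinuousLinearMap.snd ℝ E ℝ) fun b =>
      (EuclideanSpace.proj b : E →L[ℝ] ℝ).comp (ContinuousLinearMap.fst ℝ E ℝ))
    (fun y => ?_) ?_ m hf
  · rw [Fintype.sum_option]
    ext1
    · simpa [Prod.fst_sum] using eq_sum_ee y.1
    · simp [Prod.snd_sum]
  · rintro (_ | b) f hf
    · exact hf.pd rfl
    · exact fun k => G1.it_pd (fun h => h.pd ⟨b, rfl⟩) (hf k)

end Fam

/-- jets of the height function and of the defining function at scale `δ` -/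
theorem jets (hR : ReachAS) (hB : BernS) (δ : ℝ) : ∃ C : ℕ → ℝ, ∀ (F : Mv) (X : ST), F.IsMCF →
    Hy F X δ → ∀ m, ∀ q ∈ PC X (δ / 2),
      ‖iteratedFDeriv ℝ m (uu F X δ) q‖ ≤ C m ∧ ‖iteratedFDeriv ℝ m (ph F X δ) q‖ ≤ C m := by
  have h1 := p2_ph (δ := δ) (p0_gN hR hB)
  have G := ((G0 δ).all Ds).all {(0, 1)}
  have h2 : All (All (P0 δ) Ds) {(0, 1)} fun i : Ix δ => uu i.1.1 i.1.2 δ :=
    G.congr (G.sub p2_ht h1) fun _ _ _ => by simp [ph]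
  choose C hC using p2_jets h1
  choose C' hC' using p2_jets h2
  exact ⟨fun m => max (C m) (C' m), fun F X hF h m q hq =>
    ⟨(hC' m ⟨(F, X), hF, h⟩ q hq).trans (le_max_right _ _),
      (hC m ⟨(F, X), hF, h⟩ q hq).trans (le_max_left _ _)⟩⟩

/-- `SheetS` at scale `ρ` -/
theorem sheet (hR : ReachAS) (hB : BernS) {ρ : ℝ} (hρ : 0 < ρ) : ∃ C : ℕ → ℝ, ∀ (F : Mv) (X : ST),
    F.IsMCF → X ∈ F.M → F.Proper (PC X ρ) → (∀ p ∈ F.M ∩ PC X ρ, F.Reach p ρ) →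
    ∃ (W : Set ST) (u : ST → ℝ), PC X (ρ / 200) ⊆ W ∧
      F.Loc W (fun p => ⟪p.1 - X.1, F.n X⟫_ℝ - u p) ∧
      (∀ (p : ST) (s : ℝ), u (p.1 + s • F.n X, p.2) = u p) ∧
      (∀ p ∈ PC X (ρ / 200), ‖gradX u p.1 p.2‖ ≤ 1 / 2) ∧
      ∀ m, ∀ p ∈ PC X (ρ / 200), ‖iteratedFDeriv ℝ m u p‖ ≤ C m ∧
        ‖iteratedFDeriv ℝ m (fun p : ST => ⟪p.1 - X.1, F.n X⟫_ℝ - u p) p‖ ≤ C m := by
  obtain ⟨δ, rfl⟩ : ∃ δ, ρ = 100 * δ := ⟨ρ / 100, by ring⟩
  obtain ⟨C, hC⟩ := jets hR hB δ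
  refine ⟨C, fun F X hF hX hP hr => ?_⟩
  have h := hy_of hR (by linarith) hF hX hP hr
  rw [show 100 * δ / 200 = δ / 2 by ring]
  exact ⟨_, uu F X δ, fun q hq => mem_inter (h.core hq).1 (h.core hq).2.1, loc_ph hF.1,
    uu_shift h.unit, fun q hq => h.grad_uu hq, hC F X hF h⟩

theorem sheetS_of (hR : ReachAS) (hB : BernS) : SheetS := by
  obtain ⟨C, hC⟩ := sheet hR hB one_pos
  refine ⟨1 / 200, C, by norm_num, fun F X hF hX hP hr => ?_⟩
  obtain ⟨W, u, h1, h2, h3, h4, h5⟩ := hC F X hF hX hP hr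
  exact ⟨W, u, h1, h2, h3, h4, fun m p hp => (h5 m p hp).1⟩

end Crest.Agent.N250.Gr

end
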